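import Vale.Agent.P216.H388.Spur2
import Vale.Agent.P216.H962.Inst

/-!
# The spur and the waiting homotopies for the operators of `H962/Inst` (P216, block B43, item (5))
-/

set_option linter.all false

open Set BoundedContinuousFunction

namespace Vale.Agent.P216.H388

open Vale.Agent.P216.PS Vale.Agent.P216.MV337 Vale.Agent.P216.H456
open Vale.Agent.P216.AS
open Vale.Agent.P216.H901 (tr on)
open Vale.Agent.P216.H962 (HP opT isMap_sL isMap_sR)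

variable {M : Type} [MetricSpace M] [CompactSpace M] {x₀ : M} {ℓ : ℝ} {Tp Tm : M → ℝ → M} {m : ℕ}
  {D : ℝ → (Fin (m + 1) → ℝ) → (Fin (m + 1) → ℝ)} {b : Fin (m + 1) → ℝ}
  {C : Caps (m + 1) M x₀}

/-- **(e')** -/
theorem exists_wait_pull' [SimplyConnectedSpace M] {ρ : ℝ} (hρ : 0 < ρ) (hU : LS.UniqSeg M ρ)
    (hm1 : 1 ≤ m) (hp : Tr C.Dp x₀ ℓ Tp) (hm : Tr C.Dm x₀ ℓ Tm) (hC : Coll m D b) :
    ∃ K, ∃ hK : 0 ≤ K, ∀ (k : Type) [Field k] (t : ℝ) (ht : 0 ≤ t) (q : ℕ)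
      (z : HP k x₀ q (t + 2 * ℓ + K)),
      pull (on k) (isMap_sL hm1 hp hm hC ht) q
        (res (P_mono (by linarith : t + 2 * ℓ ≤ t + 2 * ℓ + K)) q z) =
        res (P_mono (by linarith [hp.nonneg] : t ≤ t + 2 * ℓ + K)) q z ∧
      pull (on k) (isMap_sR hm1 hp hm hC ht) q
        (res (P_mono (by linarith : t + 2 * ℓ ≤ t + 2 * ℓ + K)) q z) =
        res (P_mono (by linarith [hp.nonneg] : t ≤ t + 2 * ℓ + K)) q z := by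
  obtain ⟨K, hK, h⟩ := exists_wait hρ hU hp hm
  refine ⟨K, hK, fun k _ t ht q z => ?_⟩
  obtain ⟨h1, h2⟩ := h (C.ψ b) (xb_mem C hC) t ht
  have hT : P x₀ x₀ (t + 2 * ℓ) ⊆ P x₀ x₀ (t + 2 * ℓ + K) := P_mono (by linarith)
  have h0 : P x₀ x₀ t ⊆ P x₀ x₀ (t + 2 * ℓ + K) := P_mono (by linarith [hp.nonneg])
  have key : ∀ f : (ℝ →ᵇ M) → (ℝ →ᵇ M),
      H901.Hp (P x₀ x₀ t) ∅ (P x₀ x₀ (t + 2 * ℓ + K)) ∅ f id →
      ∀ hf : IsMap (tr (ℝ →ᵇ M)) (tr (ℝ →ᵇ M)) (P x₀ x₀ t) (P x₀ x₀ (t + 2 * ℓ)) f,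
        pull (on k) hf q (res hT q z) = res h0 q z := by
    intro f H₁ hf
    have hf' : IsMap (tr (ℝ →ᵇ M)) (tr (ℝ →ᵇ M)) (P x₀ x₀ t) (P x₀ x₀ (t + 2 * ℓ + K)) f :=
      hf.mono le_rfl (hf.mapsX.mono_right hT)
    have e1 : pull (on k) hf q (res hT q z) = pull (on k) hf' q z := by
      obtain ⟨c, hc, rfl⟩ := H.exists_mk z
      rfl
    rw [e1, pull_eq_res_of_hp H₁ le_rfl h0 hf' q]
  exact ⟨key _ h1 _, key _ h2 _⟩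

/-- **(f')** -/
theorem pull_c0_opT {k : Type} [Field k] (h2 : (2 : k) ≠ 0) (hm1 : 1 ≤ m) (hp : Tr C.Dp x₀ ℓ Tp)
    (hm : Tr C.Dm x₀ ℓ Tm) (hC : Coll m D b) (q : ℕ) (t : ℝ) (ht : 0 < t)
    (i : IsMap (tr (ℝ →ᵇ M)) (tr (ℝ →ᵇ M)) {cst x₀} (P x₀ x₀ t) id)
    (z : HP k x₀ (q + m) (t + 2 * ℓ + 2 * ℓ)) :
    pull (on k) i q (opT h2 hm1 hp hm hC q t ht z) = 0 := by
  have hc : {cst x₀} ⊆ P x₀ x₀ t := singleton_subset_iff.2 (cst_mem x₀ t)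
  rw [pull_eq_res (a := tr (ℝ →ᵇ M)) (χ := on k) hc i fun _ _ => rfl]
  exact res_Sl_FmT h2 hm1 hp hm hC ht.le (P_mono (by linarith))
    (H962.isFm_T hm1 hp hm hC ht.le) q z hc

/-- **`T1`**: in degree `0`, `T` vanishes after the time `K`. -/
theorem exists_opT_zero [SimplyConnectedSpace M] {ρ : ℝ} (hρ : 0 < ρ) (hU : LS.UniqSeg M ρ) :
    ∃ K, 0 ≤ K ∧ ∀ {k : Type} [Field k] (h2 : (2 : k) ≠ 0) (hm1 : 1 ≤ m) {Tp Tm : M → ℝ → M} {ℓ : ℝ}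
      (hp : Tr C.Dp x₀ ℓ Tp) (hm : Tr C.Dm x₀ ℓ Tm) (hC : Coll m D b) {s t : ℝ} (hs : 0 ≤ s)
      (hst : s + K ≤ t) (ht : 0 < t) (hr : P x₀ x₀ s ⊆ P x₀ x₀ t)
      (z : HP k x₀ (0 + m) (t + 2 * ℓ + 2 * ℓ)),
      res (a := tr (ℝ →ᵇ M)) (χ := on k) hr 0 (opT h2 hm1 hp hm hC 0 t ht z) = 0 := by
  obtain ⟨K, hK, h⟩ := exists_T1 (C := C) (D := D) (b := b) hρ hU
  refine ⟨K, hK, fun {k} _ h2 hm1 {Tp Tm ℓ} hp hm hC {s t} hs hst ht hr z => ?_⟩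
  exact h h2 hm1 hp hm hC hs hst (P_mono (by linarith)) (H962.isFm_T hm1 hp hm hC ht.le) z hr

end Vale.Agent.P216.H388
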