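import Vale.Agent.P216.MV337.Caps

/-!
# P216-B, block [SPH]: the caps of a sphere (`helper388`)

`stCaps : StCaps`: a space homeomorphic to the unit sphere of `ℝ^(n+1)`, `n ≥ 1`, has caps.
-/

namespace Vale.Agent.P216.H388

open Set MV337

noncomputable section

variable {n : ℕ}

/-- The space. -/
abbrev En (n : ℕ) : Type := EuclideanSpace ℝ (Fin (n + 1))

/-- The pole. -/
def pole (n : ℕ) : En n := EuclideanSpace.single (Fin.last n) 1

theorem pole_last : (pole n) (Fin.last n) = 1 := by
  simp [pole]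

theorem pole_castSucc (i : Fin n) : (pole n) i.castSucc = 0 := by
  simp [pole, (Fin.castSucc_lt_last i).ne]

theorem norm_pole : ‖pole n‖ = 1 := by
  simp [pole]

open Classical in
/-- Normalisation. -/
def nz (v : En n) : Metric.sphere (0 : En n) 1 :=
  if h : v ≠ 0 then ⟨‖v‖⁻¹ • v, by simp [norm_smul, h]⟩ else ⟨pole n, by simp [norm_pole]⟩

theorem nz_val {v : En n} (h : v ≠ 0) : (nz v : En n) = ‖v‖⁻¹ • v := by
  unfold nz
  rw [dif_pos h]

theorem nz_apply {v : En n} (h : v ≠ 0) (i : Fin (n + 1)) : (nz v : En n) i = ‖v‖⁻¹ * v i := by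
  rw [nz_val h]
  simp

theorem continuousOn_nz : ContinuousOn (nz (n := n)) {v | v ≠ 0} := by
  rw [Topology.IsInducing.subtypeVal.continuousOn_iff]
  have h : ContinuousOn (fun v : En n => ‖v‖⁻¹ • v) {v | v ≠ 0} := by
    refine ContinuousOn.smul (ContinuousOn.inv₀ continuous_norm.continuousOn fun v hv => ?_)
      continuousOn_id
    exact norm_ne_zero_iff.2 hv
  exact h.congr fun v hv => nz_val hv

theorem nz_of_mem (x : Metric.sphere (0 : En n) 1) : nz (x : En n) = x := by
  have h1 : ‖(x : En n)‖ = 1 := by simp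
  have h : (x : En n) ≠ 0 := by
    intro h
    rw [h, norm_zero] at h1
    exact zero_ne_one h1
  ext1
  rw [nz_val h, h1]
  simp

theorem nz_smul {v : En n} (h : v ≠ 0) {c : ℝ} (hc : 0 < c) : nz (c • v) = nz v := by
  have h' : c • v ≠ 0 := smul_ne_zero hc.ne' h
  ext1
  rw [nz_val h', nz_val h, norm_smul, Real.norm_of_nonneg hc.le, smul_smul]
  congr 1
  have := norm_ne_zero_iff.2 h
  field_simp

theorem continuous_apply (i : Fin (n + 1)) : Continuous fun v : En n => v i := by
  fun_prop

/-- The clamp. -/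
def cl (s : ℝ) : ℝ := max 0 (min s 1)

theorem continuous_cl : Continuous cl := by
  unfold cl
  fun_prop

theorem cl_mem (s : ℝ) : cl s ∈ Icc (0 : ℝ) 1 :=
  ⟨le_max_left _ _, max_le zero_le_one (min_le_right _ _)⟩

theorem cl_zero : cl 0 = 0 := by simp [cl]

theorem cl_of_one_le {s : ℝ} (h : 1 ≤ s) : cl s = 1 := by
  simp [cl, h]

section

variable {M : Type} [TopologicalSpace M]

open Classical in
/-- From a nullhomotopy to a point and a path. -/
theorem exists_null {D : Set M} {J : M × ℝ → M} (hJ : ContinuousOn J (D ×ˢ univ)) {a x₀ : M}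
    (h0 : ∀ x ∈ D, J (x, 0) = x) (h1 : ∀ x ∈ D, ∀ s, 1 ≤ s → J (x, s) = a) (γ : Path a x₀) :
    ∃ H : M × ℝ → M, ContinuousOn H (D ×ˢ Icc (0 : ℝ) 1) ∧ (∀ x ∈ D, H (x, 0) = x) ∧
      ∀ x ∈ D, H (x, 1) = x₀ := by
  refine ⟨fun p => if p.2 ≤ 1 / 2 then J (p.1, 2 * p.2) else γ.extend (2 * p.2 - 1), ?_, ?_, ?_⟩
  · refine ContinuousOn.mono ?_ (prod_mono (Subset.refl D) (subset_univ _))
    rw [continuousOn_iff_continuous_domRestrict]
    change Continuous fun q : (D ×ˢ (univ : Set ℝ) : Set (M × ℝ)) =>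
      if q.1.2 ≤ 1 / 2 then J (q.1.1, 2 * q.1.2) else γ.extend (2 * q.1.2 - 1)
    refine Continuous.if_le ?_ ?_ ?_ continuous_const ?_
    · refine hJ.comp_continuous ?_ fun q => ?_
      · fun_prop
      · exact ⟨q.2.1, mem_univ _⟩
    · exact γ.continuous_extend.comp (by fun_prop)
    · fun_prop
    · intro q hq
      rw [hq, h1 q.1.1 q.2.1 _ (by norm_num)]
      norm_num
  · intro x hx
    simp [h0 x hx]
  · intro x hx
    have : ¬((1 : ℝ) ≤ 1 / 2) := by norm_num
    simp only [this, if_false]
    norm_num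

variable (h : M ≃ₜ Metric.sphere (0 : En n) 1)

/-- The coordinates. -/
def co (x : M) (i : Fin (n + 1)) : ℝ := (h x : En n) i

theorem continuous_co (i : Fin (n + 1)) : Continuous fun x => co h x i :=
  (continuous_apply i).comp (continuous_subtype_val.comp h.continuous)

theorem norm_h (x : M) : ‖(h x : En n)‖ = 1 := by
  simp

theorem exists_co_ne (x : M) : ∃ i, co h x i ≠ 0 := by
  by_contra hc
  push Not at hc
  have h1 : (h x : En n) = 0 := by
    ext i
    exact hc i
  have h2 := norm_h h x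
  rw [h1, norm_zero] at h2
  exact zero_ne_one h2

/-- The upper cap. -/
def Dp : Set M := {x | ∀ i : Fin n, |co h x i.castSucc| ≤ co h x (Fin.last n)}

/-- The lower cap. -/
def Dm : Set M := {x | ∃ i : Fin n, co h x (Fin.last n) ≤ |co h x i.castSucc|}

theorem last_pos (hn : 1 ≤ n) {x : M} (hx : x ∈ Dp h) : 0 < co h x (Fin.last n) := by
  have h0 : 0 ≤ co h x (Fin.last n) := (abs_nonneg _).trans (hx ⟨0, hn⟩)
  refine lt_of_le_of_ne h0 fun h1 => ?_
  obtain ⟨i, hi⟩ := exists_co_ne h x
  refine hi ?_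
  refine Fin.lastCases (motive := fun i => co h x i = 0) h1.symm (fun j => ?_) i
  have h2 := hx j
  rw [← h1] at h2
  exact abs_nonpos_iff.1 h2

theorem isClosed_Dp : IsClosed (Dp h) := by
  have : Dp h = ⋂ i : Fin n, {x | |co h x i.castSucc| ≤ co h x (Fin.last n)} := by
    ext x
    simp [Dp]
  rw [this]
  exact isClosed_iInter fun i => isClosed_le (continuous_co h _).abs (continuous_co h _)

theorem isClosed_Dm : IsClosed (Dm h) := by
  have : Dm h = ⋃ i : Fin n, {x | co h x (Fin.last n) ≤ |co h x i.castSucc|} := by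
    ext x
    simp [Dm]
  rw [this]
  exact isClosed_iUnion_of_finite fun i =>
    isClosed_le (continuous_co h _) (continuous_co h _).abs

/-- The vector of the cube. -/
def vec (y : Fin n → ℝ) : En n :=
  WithLp.toLp 2 (Fin.snoc (α := fun _ => ℝ) (fun i => 2 * y i - 1) 1)

theorem vec_last (y : Fin n → ℝ) : vec y (Fin.last n) = 1 := by
  simp [vec]

theorem vec_castSucc (y : Fin n → ℝ) (i : Fin n) : vec y i.castSucc = 2 * y i - 1 := by
  simp [vec]

theorem vec_ne (y : Fin n → ℝ) : vec y ≠ 0 := by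
  intro h
  have := vec_last y
  rw [h] at this
  simp at this

theorem continuous_vec : Continuous (vec (n := n)) := by
  unfold vec
  refine (PiLp.continuous_toLp 2 _).comp (continuous_pi fun i => ?_)
  refine Fin.lastCases ?_ (fun j => ?_) i
  · simp only [Fin.snoc_last]
    exact continuous_const
  · simp only [Fin.snoc_castSucc]
    fun_prop

/-- The homotopy to `± e`. -/
def hom (c : ℝ) (p : M × ℝ) : M :=
  h.symm (nz ((1 - cl p.2) • (h p.1 : En n) + (cl p.2 * c) • pole n))

theorem hom_zero (c : ℝ) (x : M) : hom h c (x, 0) = x := by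
  unfold hom
  simp [cl_zero, nz_of_mem]

theorem hom_one (c : ℝ) (x : M) {s : ℝ} (hs : 1 ≤ s) : hom h c (x, s) = h.symm (nz (c • pole n)) := by
  unfold hom
  simp [cl_of_one_le hs]

theorem continuousOn_hom {c : ℝ} {D : Set M}
    (hD : ∀ x ∈ D, ∀ s ∈ Icc (0 : ℝ) 1, (1 - s) • (h x : En n) + (s * c) • pole n ≠ 0) :
    ContinuousOn (hom h c) (D ×ˢ univ) := by
  unfold hom
  refine h.symm.continuous.comp_continuousOn (continuousOn_nz.comp (Continuous.continuousOn ?_)
    fun p hp => ?_)
  · have h1 : Continuous fun p : M × ℝ => cl p.2 := continuous_cl.comp continuous_snd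
    have h2 : Continuous fun p : M × ℝ => (h p.1 : En n) :=
      continuous_subtype_val.comp (h.continuous.comp continuous_fst)
    exact ((continuous_const.sub h1).smul h2).add ((h1.mul continuous_const).smul continuous_const)
  · exact hD p.1 hp.1 _ (cl_mem p.2)

theorem nd_p (hn : 1 ≤ n) {x : M} (hx : x ∈ Dp h) {s : ℝ} (hs : s ∈ Icc (0 : ℝ) 1) :
    (1 - s) • (h x : En n) + (s * 1) • pole n ≠ 0 := by
  intro h0
  have h1 := congrArg (fun v : En n => v (Fin.last n)) h0
  have h2 : (1 - s) * co h x (Fin.last n) + s * 1 * 1 = 0 := by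
    simpa [co, pole_last] using h1
  have h3 := last_pos h hn hx
  rcases eq_or_lt_of_le hs.1 with h4 | h4
  · rw [← h4] at h2
    simp at h2
    linarith
  · have : 0 ≤ (1 - s) * co h x (Fin.last n) := mul_nonneg (by linarith [hs.2]) h3.le
    linarith

theorem nd_m {x : M} (hx : x ∈ Dm h) {s : ℝ} (hs : s ∈ Icc (0 : ℝ) 1) :
    (1 - s) • (h x : En n) + (s * -1) • pole n ≠ 0 := by
  intro h0
  have h1 := congrArg (fun v : En n => v (Fin.last n)) h0
  have h2 : (1 - s) * co h x (Fin.last n) - s = 0 := by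
    have : (1 - s) * co h x (Fin.last n) + s * -1 * 1 = 0 := by
      simpa [co, pole_last] using h1
    linarith
  have h3 : ∀ i : Fin n, (1 - s) * co h x i.castSucc = 0 := by
    intro i
    have h4 := congrArg (fun v : En n => v i.castSucc) h0
    simpa [co, pole_castSucc] using h4
  have hs1 : s < 1 := by
    refine lt_of_le_of_ne hs.2 fun h5 => ?_
    rw [h5] at h2
    norm_num at h2
  have h4 : ∀ i : Fin n, co h x i.castSucc = 0 := fun i =>
    (mul_eq_zero.1 (h3 i)).resolve_left (by linarith)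
  obtain ⟨i, hi⟩ := hx
  rw [h4 i, abs_zero] at hi
  have h5 : (1 - s) * co h x (Fin.last n) ≤ 0 :=
    mul_nonpos_of_nonneg_of_nonpos (by linarith) hi
  have h6 : s = 0 := le_antisymm (by linarith) hs.1
  rw [h6] at h2
  have h7 : co h x (Fin.last n) = 0 := by linarith
  obtain ⟨j, hj⟩ := exists_co_ne h x
  exact hj (Fin.lastCases (motive := fun j => co h x j = 0) h7 h4 j)

theorem co_hom {c : ℝ} {x : M} {s : ℝ}
    (hv : (1 - cl s) • (h x : En n) + (cl s * c) • pole n ≠ 0) (i : Fin (n + 1)) :
    co h (hom h c (x, s)) i = ‖(1 - cl s) • (h x : En n) + (cl s * c) • pole n‖⁻¹ *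
      ((1 - cl s) * co h x i + cl s * c * pole n i) := by
  unfold hom co
  rw [h.apply_symm_apply, nz_apply hv]
  simp

/-- The lower cap is contracted in itself. -/
theorem hom_mem {x : M} (hx : x ∈ Dm h) (s : ℝ) : hom h (-1) (x, s) ∈ Dm h := by
  have hv := nd_m h hx (cl_mem s)
  obtain ⟨i, hi⟩ := hx
  refine ⟨i, ?_⟩
  rw [co_hom h hv, co_hom h hv, pole_last, pole_castSucc, abs_mul,
    abs_of_nonneg (inv_nonneg.2 (norm_nonneg _))]
  refine mul_le_mul_of_nonneg_left ?_ (inv_nonneg.2 (norm_nonneg _))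
  have h1 := cl_mem s
  rw [mul_zero, add_zero, abs_mul, abs_of_nonneg (by linarith [h1.2])]
  have h2 := mul_le_mul_of_nonneg_left hi (by linarith [h1.2] : 0 ≤ 1 - cl s)
  linarith [h1.1]

theorem pole_ne : pole n ≠ 0 := by
  rw [← norm_ne_zero_iff, norm_pole]
  exact one_ne_zero

theorem xm_mem (hn : 1 ≤ n) : h.symm (nz ((-1 : ℝ) • pole n)) ∈ Dm h := by
  refine ⟨⟨0, hn⟩, ?_⟩
  unfold co
  have h0 : (-1 : ℝ) • pole n ≠ 0 := smul_ne_zero (by norm_num) pole_ne
  rw [h.apply_symm_apply, nz_apply h0]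
  refine le_trans ?_ (abs_nonneg _)
  refine mul_nonpos_of_nonneg_of_nonpos (inv_nonneg.2 (norm_nonneg _)) ?_
  rw [PiLp.smul_apply, pole_last]
  norm_num

theorem pathConnected (hn : 1 ≤ n) (h : M ≃ₜ Metric.sphere (0 : En n) 1) :
    PathConnectedSpace M := by
  have h1 : 1 < Module.rank ℝ (En n) := by
    rw [← Module.finrank_eq_rank, finrank_euclideanSpace_fin]
    exact_mod_cast Nat.lt_succ_of_le hn
  have h2 := isPathConnected_sphere h1 (0 : En n) zero_le_one
  have h3 := isPathConnected_iff_pathConnectedSpace.1 h2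
  exact h.symm.surjective.pathConnectedSpace h.symm.continuous

/-- **The caps.** -/
theorem stCaps : StCaps := by
  intro n M _ x₀ hn ⟨h⟩
  have hpc := pathConnected hn h
  obtain ⟨Hp, hp1, hp2, hp3⟩ := exists_null (D := Dp h) (J := hom h 1)
    (continuousOn_hom h fun x hx s hs => nd_p h hn hx hs) (fun x _ => hom_zero h 1 x)
    (fun x _ s hs => hom_one h 1 x hs) (PathConnectedSpace.somePath _ x₀)
  obtain ⟨Hm, hm1, hm2, hm3⟩ := exists_null (D := Dm h) (J := hom h (-1))
    (continuousOn_hom h fun x hx s hs => nd_m h hx hs) (fun x _ => hom_zero h (-1) x)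
    (fun x _ s hs => hom_one h (-1) x hs) (PathConnectedSpace.somePath _ x₀)
  have hco : ∀ (y : Fin n → ℝ) (i : Fin (n + 1)),
      co h (h.symm (nz (vec y))) i = ‖vec y‖⁻¹ * vec y i := by
    intro y i
    unfold co
    rw [h.apply_symm_apply, nz_apply (vec_ne y)]
  have hpos : ∀ y : Fin n → ℝ, 0 < ‖vec y‖⁻¹ := fun y => inv_pos.2 (norm_pos_iff.2 (vec_ne y))
  refine ⟨{
    Dp := Dp h
    Dm := Dm h
    closed_p := isClosed_Dp h
    closed_m := isClosed_Dm h
    union := ?_
    φ := fun x i => (co h x i.castSucc / co h x (Fin.last n) + 1) / 2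
    ψ := fun y => h.symm (nz (vec y))
    φ_cont := ?_
    φ_mem := ?_
    ψ_cont := ?_
    ψ_mem := ?_
    φψ := ?_
    ψφ := ?_
    bdry := ?_
    Hp := Hp
    Hp_cont := hp1
    Hp_zero := hp2
    Hp_one := hp3
    Hm := Hm
    Hm_cont := hm1
    Hm_zero := hm2
    Hm_one := hm3
    xm := h.symm (nz ((-1 : ℝ) • pole n))
    xm_mem := xm_mem h hn
    Km := hom h (-1)
    Km_cont := (continuousOn_hom h fun x hx s hs => nd_m h hx hs).mono
      (prod_mono (Subset.refl _) (subset_univ _))
    Km_mem := fun x hx s _ => hom_mem h hx s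
    Km_zero := fun x _ => hom_zero h (-1) x
    Km_one := fun x _ => hom_one h (-1) x le_rfl }⟩
  · ext x
    simp only [mem_union, mem_univ, iff_true]
    by_cases hx : x ∈ Dp h
    · exact Or.inl hx
    · right
      simp only [Dp, mem_ofPred_eq, not_forall, not_le] at hx
      obtain ⟨i, hi⟩ := hx
      exact ⟨i, hi.le⟩
  · refine continuousOn_pi.2 fun i => ?_
    refine ContinuousOn.div_const (ContinuousOn.add (ContinuousOn.div
      (continuous_co h _).continuousOn (continuous_co h _).continuousOn fun x hx =>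
        (last_pos h hn hx).ne') continuousOn_const) _
  · intro x hx i
    have h1 := last_pos h hn hx
    have h2 := abs_le.1 (hx i)
    have h3 : co h x i.castSucc / co h x (Fin.last n) ≤ 1 := (div_le_one h1).2 h2.2
    have h4 : -1 ≤ co h x i.castSucc / co h x (Fin.last n) := by
      rw [le_div_iff₀ h1]
      linarith
    constructor <;> linarith
  · exact (h.symm.continuous.comp_continuousOn (continuousOn_nz.comp continuous_vec.continuousOn
      fun y _ => vec_ne y))
  · intro y hy i
    rw [hco, hco, vec_last, vec_castSucc, abs_mul, abs_of_pos (hpos y)]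
    refine mul_le_mul_of_nonneg_left ?_ (hpos y).le
    rw [abs_le]
    constructor <;> linarith [(hy i).1, (hy i).2]
  · intro y hy
    ext i
    simp only [hco, vec_last, vec_castSucc]
    have hy0 := norm_ne_zero_iff.2 (vec_ne y)
    rw [mul_div_mul_left _ _ (inv_ne_zero hy0)]
    ring
  · intro x hx
    have h1 := last_pos h hn hx
    have h2 : vec (fun i => (co h x i.castSucc / co h x (Fin.last n) + 1) / 2) =
        (co h x (Fin.last n))⁻¹ • (h x : En n) := by
      ext i
      refine Fin.lastCases ?_ (fun j => ?_) i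
      · rw [vec_last]
        simp only [PiLp.smul_apply, smul_eq_mul]
        exact (inv_mul_cancel₀ h1.ne').symm
      · rw [vec_castSucc]
        simp only [PiLp.smul_apply, smul_eq_mul]
        change _ = (co h x (Fin.last n))⁻¹ * co h x j.castSucc
        field_simp
        ring
    have h3 : (h x : En n) ≠ 0 := by
      intro h4
      have := norm_h h x
      rw [h4, norm_zero] at this
      exact zero_ne_one this
    change h.symm (nz (vec fun i => (co h x i.castSucc / co h x (Fin.last n) + 1) / 2)) = x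
    rw [h2, nz_smul h3 (inv_pos.2 h1), nz_of_mem, h.symm_apply_apply]
  · intro x hx
    have h1 := last_pos h hn hx
    constructor
    · rintro ⟨i, hi⟩
      have h2 : |co h x i.castSucc| = co h x (Fin.last n) := le_antisymm (hx i) hi
      refine ⟨i, ?_⟩
      rcases abs_choice (co h x i.castSucc) with h3 | h3
      · right
        rw [h3] at h2
        rw [h2, div_self h1.ne']
        norm_num
      · left
        rw [h3] at h2
        have h4 : co h x i.castSucc = -co h x (Fin.last n) := by linarith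
        rw [h4, neg_div, div_self h1.ne']
        norm_num
    · rintro ⟨i, hi | hi⟩
      · refine ⟨i, ?_⟩
        have h2 : co h x i.castSucc / co h x (Fin.last n) = -1 := by linarith
        rw [div_eq_iff h1.ne'] at h2
        rw [h2, abs_mul, abs_of_pos h1]
        norm_num
      · refine ⟨i, ?_⟩
        have h2 : co h x i.castSucc / co h x (Fin.last n) = 1 := by linarith
        rw [div_eq_iff h1.ne'] at h2
        rw [h2, one_mul]
        exact le_abs_self _

end

end

end Vale.Agent.P216.H388
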