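import Vale.Agent.P216.H388.SphR
import Vale.Agent.P216.MV337.Track

/-!
# Fine tracks of symmetric caps (P216, R2, block (G0))

`exists_tracks_sym`: tracks `Tp`, `Tm` of symmetric caps such that `f ∘ T x` and `T (f x)` are
uniformly `ε`-close.
-/

set_option linter.all false

namespace Vale.Agent.P216.H388

open Set MV337 PS

section

variable {M : Type*} [MetricSpace M]

/-- The points of two polygons with the same times are close to vertices with the same index. -/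
theorem near_pg {ρ δ δ' : ℝ} (hU : LS.UniqSeg M ρ) (hδ : 0 ≤ δ) (hδ' : 0 ≤ δ') {x x' : ℕ → M}
    {Δ : ℕ → ℝ} {n : ℕ} (h : ∀ i < n, 0 < Δ i) (hx : ∀ i < n, dist (x i) (x (i + 1)) < ρ)
    (hx' : ∀ i < n, dist (x' i) (x' (i + 1)) < ρ) (hd : ∀ i < n, dist (x i) (x (i + 1)) ≤ δ)
    (hd' : ∀ i < n, dist (x' i) (x' (i + 1)) ≤ δ') (u : ℝ) :
    ∃ i ≤ n, dist (pg x Δ n u) (x i) ≤ δ ∧ dist (pg x' Δ n u) (x' i) ≤ δ' := by
  induction n with
  | zero => exact ⟨0, le_rfl, by simpa using hδ, by simpa using hδ'⟩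
  | succ n ih =>
    rw [pg_succ, pg_succ]
    split_ifs with hu
    · obtain ⟨i, hi, h1, h2⟩ := ih (fun i hi => h i (hi.trans (Nat.lt_succ_self n)))
        (fun i hi => hx i (hi.trans (Nat.lt_succ_self n)))
        (fun i hi => hx' i (hi.trans (Nat.lt_succ_self n)))
        (fun i hi => hd i (hi.trans (Nat.lt_succ_self n)))
        (fun i hi => hd' i (hi.trans (Nat.lt_succ_self n)))
      exact ⟨i, hi.trans (Nat.le_succ n), h1, h2⟩
    · have hn := Nat.lt_succ_self n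
      have hτ : min 1 ((u - cs Δ n) / Δ n) ∈ Icc (0 : ℝ) 1 :=
        ⟨le_min zero_le_one (div_nonneg (by linarith) (h n hn).le), min_le_left _ _⟩
      refine ⟨n, Nat.le_succ n, ?_, ?_⟩
      · rw [dist_comm, LS.dist_left_seg hU (hx n hn) hτ]
        exact (mul_le_of_le_one_left dist_nonneg hτ.2).trans (hd n hn)
      · rw [dist_comm, LS.dist_left_seg hU (hx' n hn) hτ]
        exact (mul_le_of_le_one_left dist_nonneg hτ.2).trans (hd' n hn)

/-- **Fine tracks** of a nullhomotopy which commutes with `f`. -/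
theorem exists_tracks_fine [CompactSpace M] {D : Set M} {x₀ : M} {ρ : ℝ} (hρ : 0 < ρ)
    (hU : LS.UniqSeg M ρ) (hD : IsCompact D) {H : M × ℝ → M}
    (hc : ContinuousOn H (D ×ˢ Icc (0:ℝ) 1)) (h0 : ∀ x ∈ D, H (x, 0) = x)
    (h1 : ∀ x ∈ D, H (x, 1) = x₀) {f : M → M} (hf : Continuous f) (hfD : ∀ x ∈ D, f x ∈ D)
    (hHf : ∀ x ∈ D, ∀ s, H (f x, s) = f (H (x, s))) {ε : ℝ} (hε : 0 < ε) :
    ∃ ℓ T, Tr D x₀ ℓ T ∧ ∀ x ∈ D, ∀ u, dist (f (T x u)) (T (f x) u) ≤ ε := by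
  have hfu := CompactSpace.uniformContinuous_of_continuous hf
  rw [Metric.uniformContinuous_iff] at hfu
  obtain ⟨η, hη, hfu⟩ := hfu (ε / 2) (by linarith)
  set δ₀ : ℝ := min (ρ / 2) (min (η / 2) (ε / 2)) with hδ₀
  have hδ₀0 : 0 < δ₀ := lt_min (by linarith) (lt_min (by linarith) (by linarith))
  have huc := (hD.prod isCompact_Icc).uniformContinuousOn_of_continuous hc
  rw [Metric.uniformContinuousOn_iff] at huc
  obtain ⟨δ, hδ, huc⟩ := huc δ₀ hδ₀0
  obtain ⟨N, hN⟩ := exists_nat_gt (1 / δ)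
  have hN0 : (0:ℝ) < N := (by positivity : 0 < 1 / δ).trans hN
  have hN1 : 1 / (N:ℝ) < δ := by
    rw [div_lt_iff₀ hN0]
    rw [div_lt_iff₀ hδ] at hN
    linarith
  have hmem : ∀ i : ℕ, i ≤ N → (i:ℝ) / N ∈ Icc (0:ℝ) 1 := fun i hi =>
    ⟨by positivity, (div_le_one hN0).2 (by exact_mod_cast hi)⟩
  have hd₀ : ∀ x ∈ D, ∀ i < N, dist (H (x, (i:ℝ) / N)) (H (x, ((i + 1 : ℕ):ℝ) / N)) < δ₀ := by
    intro x hx i hi
    refine huc _ ⟨hx, hmem i hi.le⟩ _ ⟨hx, hmem (i + 1) hi⟩ ?_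
    rw [Prod.dist_eq, dist_self, max_eq_right dist_nonneg, Real.dist_eq]
    have e : (i:ℝ) / N - ((i + 1 : ℕ):ℝ) / N = - (1 / N) := by push_cast; ring
    rw [e, abs_neg, abs_of_pos (by positivity)]
    exact hN1
  have hd : ∀ x ∈ D, ∀ i < N, dist (H (x, (i:ℝ) / N)) (H (x, ((i + 1 : ℕ):ℝ) / N)) < ρ / 2 :=
    fun x hx i hi => (hd₀ x hx i hi).trans_le (min_le_left _ _)
  have hr : ∀ i : ℕ, i < N → (0:ℝ) < (fun _ : ℕ => ρ / 2) i := fun _ _ => by
    show 0 < ρ / 2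
    linarith
  refine ⟨N * (ρ / 2), fun x u => pg (fun i => H (x, (i:ℝ) / N)) (fun _ => ρ / 2) N u,
    ⟨?_, ?_, ?_, ?_, ?_⟩, ?_⟩
  · positivity
  · intro x hx u v
    have := dist_pg_le (x := fun i : ℕ => H (x, (i:ℝ) / N)) (Δ := fun _ => ρ / 2) (n := N) hU
      zero_le_one hr (fun i hi => (hd x hx i hi).trans (by linarith))
      (fun i hi => by rw [one_mul]; exact (hd x hx i hi).le) u v
    rwa [one_mul] at this
  · intro x hx u hu
    show pg _ _ N u = x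
    rw [pg_of_nonpos hr hu]
    show H (x, ((0:ℕ):ℝ) / N) = x
    rw [Nat.cast_zero, zero_div, h0 x hx]
  · intro x hx u hu
    show pg _ _ N u = x₀
    rw [pg_of_ge hr (by rw [cs_const]; exact hu)]
    show H (x, (N:ℝ) / N) = x₀
    rw [div_self hN0.ne', h1 x hx]
  · refine continuousOn_pg (S := M × ℝ) (X := fun p i => H (p.1, (i:ℝ) / N))
      (D := fun _ _ => ρ / 2)
      (U := fun p => p.2) hU (fun i hi => ?_) (fun _ _ => continuousOn_const) continuousOn_snd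
      (fun p _ i hi => hr i hi) fun p hp i hi => (hd p.1 hp.1 i hi).trans (by linarith)
    exact hc.comp (continuousOn_fst.prodMk continuousOn_const) fun p hp => ⟨hp.1, hmem i hi⟩
  · intro x hx u
    obtain ⟨i, -, h2, h3⟩ := near_pg (δ := η / 2) (δ' := ε / 2) (Δ := fun _ : ℕ => ρ / 2)
      (x := fun i : ℕ => H (x, (i:ℝ) / N))
      (x' := fun i : ℕ => H (f x, (i:ℝ) / N)) (n := N) hU (by linarith) (by linarith) hr
      (fun i hi => (hd x hx i hi).trans (by linarith))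
      (fun i hi => (hd (f x) (hfD x hx) i hi).trans (by linarith))
      (fun i hi => ((hd₀ x hx i hi).trans_le ((min_le_right _ _).trans (min_le_left _ _))).le)
      (fun i hi => ((hd₀ (f x) (hfD x hx) i hi).trans_le
        ((min_le_right _ _).trans (min_le_right _ _))).le) u
    have h4 := (hfu (h2.trans_lt (by linarith))).le
    rw [← hHf x hx] at h4
    rw [dist_comm] at h3
    exact (dist_triangle _ _ _).trans ((add_le_add h4 h3).trans (by linarith))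

end

variable {M : Type} [MetricSpace M]

/-- **Tracks of symmetric caps**, of the same time, which almost commute with `f`. -/
theorem exists_tracks_sym [CompactSpace M] {n : ℕ} {x₀ : M} {i : Fin n} (C : RCaps n M x₀ i)
    {ρ : ℝ} (hρ : 0 < ρ) (hU : LS.UniqSeg M ρ) {ε : ℝ} (hε : 0 < ε) :
    ∃ ℓ Tp Tm, Tr C.Dp x₀ ℓ Tp ∧ Tr C.Dm x₀ ℓ Tm ∧
      (∀ x ∈ C.Dp, ∀ u, dist (C.f (Tp x u)) (Tp (C.f x) u) ≤ ε) ∧
      ∀ x ∈ C.Dm, ∀ u, dist (C.f (Tm x u)) (Tm (C.f x) u) ≤ ε := by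
  obtain ⟨ℓ, Tp, hp, hp'⟩ := exists_tracks_fine hρ hU C.closed_p.isCompact C.Hp_cont C.Hp_zero
    C.Hp_one C.f_cont (fun x hx => (C.f_Dp x).2 hx) (fun x _ s => C.Hp_f x s) hε
  obtain ⟨ℓ', Tm, hm, hm'⟩ := exists_tracks_fine hρ hU C.closed_m.isCompact C.Hm_cont C.Hm_zero
    C.Hm_one C.f_cont (fun x hx => (C.f_Dm x).2 hx) (fun x _ s => C.Hm_f x s) hε
  exact ⟨max ℓ ℓ', Tp, Tm, hp.le (le_max_left _ _), hm.le (le_max_right _ _), hp', hm'⟩

end Vale.Agent.P216.H388
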