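import Vale.Agent.P216.H388.CollR
import Vale.Agent.P216.H971.RList
import Vale.Agent.P216.B609.FCaps

/-!
# [R-A] `stCapMap` and `exists_fcaps` (P216, R2)

Caps of a sphere with the reflection of the last coordinate of the cube.
-/

namespace Vale.Agent.P216.H388

open Set MV337
open Vale.Agent.P216.H901 (rf)
open Vale.Agent.P216.H971 (rl CapMap StCapMap)
open Vale.Agent.P216.B609 (FCaps)

theorem rl_eq {m : ℕ} (y : Fin (m + 1) → ℝ) : rl y = rf (Fin.last m) y := by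
  funext j
  refine Fin.lastCases ?_ (fun j => ?_) j
  · rw [H901.rf_same]
    exact Fin.snoc_last (α := fun _ => ℝ) _ _
  · rw [H901.rf_ne (Fin.castSucc_lt_last j).ne]
    exact Fin.snoc_castSucc (α := fun _ => ℝ) _ _ _

/-- **[R-A]** -/
theorem stCapMap : StCapMap := by
  intro m M _ ⟨h⟩
  exact ⟨_, ccaps h (by omega) (Fin.last m), rM h (Fin.last m),
    continuous_rM h _, fM_x₀ h _, fun x hx => (rM_Dp h _ x).2 hx,
    fun x hx => (rM_Dm h _ x).2 hx, fun x _ => by rw [rl_eq]; exact ccaps_φ h _ _ _ x⟩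

/-- `RCaps` with `i` the last coordinate are `CapMap`s. -/
theorem RCaps.capMap {m : ℕ} {M : Type} [TopologicalSpace M] {x₀ : M}
    (C : RCaps (m + 1) M x₀ (Fin.last m)) : CapMap C.toCaps C.f :=
  ⟨C.f_cont, C.f_x₀, fun x hx => (C.f_Dp x).2 hx, fun x hx => (C.f_Dm x).2 hx,
    fun x _ => by rw [rl_eq]; exact C.φ_f x⟩

/-- Symmetric caps (last coordinate). -/
theorem exists_rcaps_last {m : ℕ} (hm : 1 ≤ m) {M : Type} [TopologicalSpace M]
    (h : M ≃ₜ Metric.sphere (0 : EuclideanSpace ℝ (Fin (m + 1 + 1))) 1) :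
    ∃ x₀ : M, Nonempty (RCaps (m + 1) M x₀ (Fin.last m)) :=
  exists_rcaps h (by omega) (j := 0) fun e => by
    have := congrArg Fin.val e
    simp at this
    omega

/-- The caps of `B609`. -/
def RCaps.fcaps {m : ℕ} {M : Type} [TopologicalSpace M] {x₀ : M}
    (C : RCaps (m + 1) M x₀ (Fin.last m)) : FCaps m M x₀ where
  toCaps := C.toCaps
  f := ⟨C.f, C.f_cont⟩
  f_x₀ := C.f_x₀
  f_p := fun x hx => (C.f_Dp x).2 hx
  f_m := fun x hx => (C.f_Dm x).2 hx
  φ_f := fun x _ => C.φ_f x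
  Hp_f := fun x _ s _ => (C.Hp_f x s).symm
  Hm_f := fun x _ s _ => (C.Hm_f x s).symm

theorem exists_fcaps {m : ℕ} (hm : 1 ≤ m) (M : Type) [TopologicalSpace M]
    (e : M ≃ₜ Metric.sphere (0 : EuclideanSpace ℝ (Fin (m + 1 + 1))) 1) :
    ∃ x₀ : M, Nonempty (FCaps m M x₀) := by
  obtain ⟨x₀, ⟨C⟩⟩ := exists_rcaps_last hm e
  exact ⟨x₀, ⟨C.fcaps⟩⟩

end Vale.Agent.P216.H388
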