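import Vale.Agent.P216.H388.TrackR
import Vale.Agent.P216.H456.SFam

/-!
# The symmetric collapse (P216, R2, block (G0))

`exists_collR`: collapse data which commute with the reflections of the first coordinates;
`xx_rf`: `xx (rf i v) = f (xx v)`.
-/

set_option linter.all false

namespace Vale.Agent.P216.H388

open Set
open Vale.Agent.P216.H456 (Coll topv clamp xx)
open Vale.Agent.P216.H901 (rf rf_same rf_ne rf_snoc_castSucc)
open Vale.Agent.P216.H962 (bJ Out)

section

variable {m : ℕ}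

/-- The sign change of a coordinate. -/
def ng (i : Fin (m + 1)) (x : Fin (m + 1) → ℝ) : Fin (m + 1) → ℝ := Function.update x i (-x i)

@[simp] theorem ng_same (i : Fin (m + 1)) (x : Fin (m + 1) → ℝ) : ng i x i = -x i :=
  Function.update_self ..

theorem ng_ne {i j : Fin (m + 1)} (h : j ≠ i) (x : Fin (m + 1) → ℝ) : ng i x j = x j :=
  Function.update_of_ne h ..

theorem abs_ng (i j : Fin (m + 1)) (x : Fin (m + 1) → ℝ) : |ng i x j| = |x j| := by
  by_cases h : j = i
  · subst h
    rw [ng_same, abs_neg]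
  · rw [ng_ne h]

theorem norm_ng (i : Fin (m + 1)) (x : Fin (m + 1) → ℝ) : ‖ng i x‖ = ‖x‖ := by
  have key : ∀ x : Fin (m + 1) → ℝ, ‖ng i x‖ ≤ ‖x‖ := fun x => by
    rw [pi_norm_le_iff_of_nonneg (norm_nonneg _)]
    intro j
    rw [Real.norm_eq_abs, abs_ng]
    exact norm_le_pi_norm x j
  refine le_antisymm (key x) ?_
  have h1 : ng i (ng i x) = x := by
    funext j
    by_cases h : j = i
    · subst h
      rw [ng_same, ng_same, neg_neg]
    · rw [ng_ne h, ng_ne h]
  calc ‖x‖ = ‖ng i (ng i x)‖ := by rw [h1]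
    _ ≤ ‖ng i x‖ := key _

theorem ng_smul (i : Fin (m + 1)) (c : ℝ) (x : Fin (m + 1) → ℝ) : ng i (c • x) = c • ng i x := by
  funext j
  by_cases h : j = i
  · subst h
    simp
  · simp [ng_ne h]

theorem ng_sub (i : Fin (m + 1)) (x y : Fin (m + 1) → ℝ) : ng i (x - y) = ng i x - ng i y := by
  funext j
  by_cases h : j = i
  · subst h
    simp
    ring
  · simp [ng_ne h]

theorem cc_rf (i : Fin (m + 1)) (y : Fin (m + 1) → ℝ) :
    H923B.cc (rf i y) = ng i (H923B.cc y) := by
  funext j
  by_cases h : j = i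
  · subst h
    rw [ng_same]
    simp only [H923B.cc, rf_same]
    ring
  · rw [ng_ne h]
    simp only [H923B.cc, rf_ne h]

theorem uu_ng (i : Fin (m + 1)) (x : Fin (m + 1) → ℝ) :
    H923B.uu (ng i x) = rf i (H923B.uu x) := by
  funext j
  by_cases h : j = i
  · subst h
    rw [rf_same]
    simp only [H923B.uu, ng_same]
    ring
  · rw [rf_ne h]
    simp only [H923B.uu, ng_ne h]

theorem ng_el (i : Fin m) : ng i.castSucc (H923B.el m) = H923B.el m := by
  funext j
  by_cases h : j = i.castSucc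
  · subst h
    rw [ng_same, H923B.el, Pi.single_eq_of_ne (Fin.castSucc_lt_last i).ne, neg_zero]
  · rw [ng_ne h]

theorem psi_ng (i : Fin m) (x : Fin (m + 1) → ℝ) :
    H923B.psi (ng i.castSucc x) = H923B.psi x := by
  unfold H923B.psi
  conv_lhs => rw [← ng_el i, ← ng_sub, norm_ng]

theorem rw0_ng (i : Fin m) (s : ℝ) (x : Fin (m + 1) → ℝ) :
    H923B.rw0 s (ng i.castSucc x) = ng i.castSucc (H923B.rw0 s x) := by
  unfold H923B.rw0
  rw [psi_ng, ng_sub, ng_smul, ng_smul, ng_el]

theorem nz_ng (i : Fin (m + 1)) (x : Fin (m + 1) → ℝ) :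
    H923B.nz (ng i x) = ng i (H923B.nz x) := by
  unfold H923B.nz
  rw [norm_ng, ng_smul]

/-- **The symmetric collapse.** -/
theorem exists_collR (m : ℕ) : ∃ (D : ℝ → (Fin (m + 1) → ℝ) → (Fin (m + 1) → ℝ))
    (b : Fin (m + 1) → ℝ), Coll m D b ∧
      (∀ (i : Fin m) s y, D s (rf i.castSucc y) = rf i.castSucc (D s y)) ∧
      ∀ i : Fin m, rf i.castSucc b = b := by
  refine ⟨fun s y => H923B.uu (H923B.nz (H923B.rw0 s (H923B.cc y))), H923B.uu (-H923B.el m),
    ⟨?_, ?_, ?_, ?_, ?_⟩, ?_, ?_⟩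
  · exact H923B.uu_mem_of_norm (by rw [norm_neg, H923B.norm_el])
  · refine H923B.continuous_uu.comp_continuousOn (H923B.continuousOn_nz.comp ?_ ?_)
    · exact (H923B.continuous_rw0.comp
        (continuous_fst.prodMk (H923B.continuous_cc.comp continuous_snd))).continuousOn
    · rintro ⟨s, y⟩ ⟨hs, hy⟩
      exact H923B.rw0_ne hs (H923B.norm_cc_of_mem hy)
  · intro s hs y hy
    exact H923B.uu_mem_of_norm (H923B.norm_nz (H923B.rw0_ne hs (H923B.norm_cc_of_mem hy)))
  · intro y hy
    change H923B.uu (H923B.nz (H923B.rw0 0 (H923B.cc y))) = y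
    rw [H923B.rw0, zero_mul, sub_zero, one_smul, zero_smul, sub_zero,
      H923B.nz_of_norm (H923B.norm_cc_of_mem hy), H923B.uu_cc]
  · intro y hy h
    change H923B.uu (H923B.nz (H923B.rw0 1 (H923B.cc y))) = H923B.uu (-H923B.el m)
    rw [H923B.rw0, H923B.psi_cc_eq_one hy h, mul_one, sub_self, zero_smul, one_smul, zero_sub,
      H923B.nz_of_norm (by rw [norm_neg, H923B.norm_el])]
  · intro i s y
    simp only
    rw [cc_rf, rw0_ng, nz_ng, uu_ng]
  · intro i
    have h : -H923B.el m = (-1 : ℝ) • H923B.el m := by rw [neg_one_smul]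
    rw [← uu_ng, h, ng_smul, ng_el]

theorem clamp_rf (i : Fin m) (v : Fin m → ℝ) : clamp (rf i v) = rf i (clamp v) := by
  funext j
  by_cases h : j = i
  · subst h
    rw [rf_same]
    simp only [clamp, rf_same]
    rcases le_total (v j) 0 with h0 | h0
    · rw [min_eq_left (by linarith), max_eq_right zero_le_one, min_eq_right (by linarith),
        max_eq_left h0, sub_zero]
    rcases le_total 1 (v j) with h1 | h1
    · rw [min_eq_right (by linarith), max_eq_left (by linarith), min_eq_left h1,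
        max_eq_right zero_le_one, sub_self]
    · rw [min_eq_right (by linarith), max_eq_right (by linarith), min_eq_right h1,
        max_eq_right h0]
  · rw [rf_ne h]
    simp only [clamp, rf_ne h]

theorem topv_rf (i : Fin m) (v : Fin m → ℝ) : topv (rf i v) = rf i.castSucc (topv v) := by
  unfold topv
  rw [clamp_rf, rf_snoc_castSucc]

/-- **The point `xx` of the reflected parameter.** -/
theorem xx_rf {M : Type} [MetricSpace M] {x₀ : M} {i : Fin m} (C : RCaps (m + 1) M x₀ i.castSucc)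
    {D : ℝ → (Fin (m + 1) → ℝ) → (Fin (m + 1) → ℝ)}
    (hD : ∀ s y, D s (rf i.castSucc y) = rf i.castSucc (D s y)) (v : Fin m → ℝ) :
    xx C.toCaps D (rf i v) = C.f (xx C.toCaps D v) := by
  unfold xx
  rw [topv_rf, hD, C.ψ_f]

/-- The base point of the collapse is fixed by `f`. -/
theorem f_psi_b {M : Type} [MetricSpace M] {x₀ : M} {i : Fin m}
    (C : RCaps (m + 1) M x₀ i.castSucc) {b : Fin (m + 1) → ℝ} (hb : rf i.castSucc b = b) :
    C.f (C.ψ b) = C.ψ b := by
  rw [← C.ψ_f, hb]

/-- Symmetric caps for spheres of dimension `m + 1`. -/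
theorem exists_rcaps' {M : Type} [TopologicalSpace M] (i : Fin m)
    (h : M ≃ₜ Metric.sphere (0 : EuclideanSpace ℝ (Fin (m + 1 + 1))) 1) :
    ∃ x₀ : M, Nonempty (RCaps (m + 1) M x₀ i.castSucc) :=
  exists_rcaps h (by omega) (j := Fin.last m) (Fin.castSucc_lt_last i).ne

end

end Vale.Agent.P216.H388
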