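import Vale.Agent.P216.H894.MooreMaps

/-!
# P216-B, block [W6]: refinement of the mesh (`helper388`)

`Hp_fM`: the maps `fM K η` and `fM K' η` from `XE M s` to the Moore loops `FL M (s + η)` are
homotopic, for all meshes `K`, `K'` with `s ^ 2 < K ρ ^ 2`, `s ^ 2 < K' ρ ^ 2`;  `f_nat`: the field of
`SpIntl`.

The polygon with `K` vertices is the polygon with `m K` vertices of the broken geodesic loop
(`fM_itpL`); the Milnor homotopy does the rest.
-/

set_option linter.all false

namespace Vale.Agent.P216.H388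

open Set Filter Topology BoundedContinuousFunction
open Vale.Agent.P216.AS (IsMap IsHtpy)
open Vale.Agent.P216.H901 (tr Hp SpIntl)
open Vale.Agent.P216.L250
open Vale.Agent.P216.LS
open Vale.Agent.P216.MV337
open Vale.Agent.P216.H894
open Vale.Agent.P216.PS (mo Lip PP)

section

variable {M : Type} [MetricSpace M] {ρ s η : ℝ} {x : ℕ → M} {D : ℕ → ℝ} {n m K K' : ℕ}

/-- A piece of a segment. -/
theorem seg_seg {x y : M} {a b v : ℝ} (hU : UniqSeg M ρ) (hxy : dist x y < ρ) (ha : 0 ≤ a)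
    (hab : a ≤ b) (hb : b ≤ 1) (hv : v ∈ Icc (0 : ℝ) 1) :
    seg (seg x y a) (seg x y b) v = seg x y (a + v * (b - a)) := by
  have h0 : 0 ≤ v * (b - a) := mul_nonneg hv.1 (sub_nonneg.2 hab)
  have h1 : v * (b - a) ≤ b - a := mul_le_of_le_one_left (sub_nonneg.2 hab) hv.2
  have hd := dist_seg_seg_le hU hxy ha hab hb
  have hlt : dist (seg x y a) (seg x y b) < ρ := by
    rw [hd]
    refine lt_of_le_of_lt ?_ hxy
    exact mul_le_of_le_one_left dist_nonneg (by linarith)
  refine (eq_seg hU hlt hv ?_ ?_).symm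
  · rw [dist_seg_seg_le hU hxy ha (by linarith) (by linarith), hd]
    ring
  · rw [dist_seg_seg_le hU hxy (by linarith) (by linarith) hb, hd]
    ring

/-- The vertices of the subdivision. -/
noncomputable def sy (m : ℕ) (x : ℕ → M) (k : ℕ) : M :=
  seg (x (k / m)) (x (k / m + 1)) ((k % m : ℕ) / m)

/-- The durations of the subdivision. -/
noncomputable def sd (m : ℕ) (D : ℕ → ℝ) (k : ℕ) : ℝ := D (k / m) / m

theorem sy_mul (hm : 0 < m) (x : ℕ → M) (i j : ℕ) (hj : j ≤ m) :
    sy m x (m * i + j) = seg (x i) (x (i + 1)) (j / m) := by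
  have hm' : (m : ℝ) ≠ 0 := by exact_mod_cast hm.ne'
  rcases hj.eq_or_lt with rfl | hj
  · have e1 : (j * i + j) / j = i + 1 := by
      rw [← Nat.mul_succ, Nat.mul_div_cancel_left _ hm]
    have e2 : (j * i + j) % j = 0 := by
      rw [← Nat.mul_succ, Nat.mul_mod_right]
    rw [sy, e1, e2, Nat.cast_zero, zero_div, seg_zero, div_self hm', seg_one]
  · have e1 : (m * i + j) / m = i := by
      rw [Nat.mul_add_div hm, Nat.div_eq_of_lt hj, add_zero]
    have e2 : (m * i + j) % m = j := by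
      rw [Nat.mul_add_mod, Nat.mod_eq_of_lt hj]
    rw [sy, e1, e2]

theorem sd_mul (D : ℕ → ℝ) (i j : ℕ) (hj : j < m) : sd m D (m * i + j) = D i / m := by
  have hm : 0 < m := (Nat.zero_le j).trans_lt hj
  have e1 : (m * i + j) / m = i := by
    rw [Nat.mul_add_div hm, Nat.div_eq_of_lt hj, add_zero]
  rw [sd, e1]

theorem cs_sd_add (hm : 0 < m) (D : ℕ → ℝ) (i j : ℕ) (hj : j ≤ m) :
    cs (sd m D) (m * i + j) = cs (sd m D) (m * i) + j * (D i / m) := by
  induction j with
  | zero => simp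
  | succ j ih =>
    rw [← add_assoc, cs_succ, ih (Nat.le_of_succ_le hj), sd_mul D i j hj]
    push_cast
    ring

theorem cs_sd (hm : 0 < m) (D : ℕ → ℝ) (i : ℕ) : cs (sd m D) (m * i) = cs D i := by
  have hm' : (m : ℝ) ≠ 0 := by exact_mod_cast hm.ne'
  induction i with
  | zero => simp
  | succ i ih =>
    rw [Nat.mul_succ, cs_sd_add hm D i m le_rfl, ih, cs_succ]
    field_simp

/-- **Subdivision of a polygon.** -/
theorem pg_subdiv (hU : UniqSeg M ρ) (hm : 0 < m) (hD : ∀ i < n, 0 < D i)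
    (hρ : ∀ i < n, dist (x i) (x (i + 1)) < ρ) (u : ℝ) :
    pg (sy m x) (sd m D) (m * n) u = pg x D n u := by
  have hm' : (0 : ℝ) < m := by exact_mod_cast hm
  induction n with
  | zero =>
    have : sy m x 0 = x 0 := by
      have := sy_mul hm x 0 0 (Nat.zero_le _)
      simpa using this
    simpa using this
  | succ n ih =>
    have hD' : ∀ i < n, 0 < D i := fun i hi => hD i (hi.trans (Nat.lt_succ_self n))
    have hρ' : ∀ i < n, dist (x i) (x (i + 1)) < ρ := fun i hi =>
      hρ i (hi.trans (Nat.lt_succ_self n))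
    have hDn := hD n (Nat.lt_succ_self n)
    have hρn := hρ n (Nat.lt_succ_self n)
    have key : ∀ j ≤ m, pg (sy m x) (sd m D) (m * n + j) u =
        if u ≤ cs D n then pg x D n u else
          seg (x n) (x (n + 1)) (min (j / m) ((u - cs D n) / D n)) := by
      intro j
      induction j with
      | zero =>
        intro _
        rw [add_zero, ih hD' hρ']
        split_ifs with h
        · rfl
        · push Not at h
          have : 0 ≤ (u - cs D n) / D n := div_nonneg (by linarith) hDn.le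
          rw [Nat.cast_zero, zero_div, min_eq_left this, seg_zero]
          exact pg_of_ge hD' h.le
      | succ j ihj =>
        intro hj
        have hj' : j < m := hj
        have hjm : (j : ℝ) / m ≤ 1 := (div_le_one hm').2 (by exact_mod_cast hj'.le)
        have hj0 : (0 : ℝ) ≤ (j : ℝ) / m := by positivity
        have e0 : ((j + 1 : ℕ) : ℝ) / m = j / m + 1 / m := by push_cast; ring
        have hi0 : (0 : ℝ) < 1 / m := by positivity
        rw [← add_assoc, pg_succ, ihj hj'.le, cs_sd_add hm D n j hj'.le, cs_sd hm,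
          sd_mul D n j hj', sy_mul hm x n j hj'.le,
          show m * n + j + 1 = m * n + (j + 1) from rfl, sy_mul hm x n (j + 1) hj]
        by_cases h : u ≤ cs D n
        · have h' : u ≤ cs D n + j * (D n / m) := by
            have : 0 ≤ (j : ℝ) * (D n / m) := by positivity
            linarith
          rw [if_pos h', if_pos h, if_pos h]
        · rw [if_neg h, if_neg h]
          by_cases h1 : u ≤ cs D n + j * (D n / m)
          · rw [if_pos h1]
            have h2 : (u - cs D n) / D n ≤ j / m := by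
              rw [div_le_iff₀ hDn]
              calc u - cs D n ≤ j * (D n / m) := by linarith
                _ = _ := by ring
            rw [min_eq_right h2, e0, min_eq_right (by linarith)]
          · rw [if_neg h1]
            push Not at h1
            have h3 : (j : ℝ) / m ≤ (u - cs D n) / D n := by
              rw [le_div_iff₀ hDn]
              calc (j : ℝ) / m * D n = j * (D n / m) := by ring
                _ ≤ _ := by linarith
            have hv : 0 ≤ (u - (cs D n + j * (D n / m))) / (D n / m) :=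
              div_nonneg (by linarith) (by positivity)
            have he : ((j + 1 : ℕ) : ℝ) / m ≤ 1 := by
              rw [div_le_one hm']
              exact_mod_cast hj
            rw [seg_seg hU hρn hj0 (by rw [e0]; linarith) he
              ⟨le_min zero_le_one hv, min_le_left _ _⟩]
            congr 1
            have e1 : ((j + 1 : ℕ) : ℝ) / m - j / m = 1 / m := by rw [e0]; ring
            have e2 : (u - (cs D n + j * (D n / m))) / (D n / m) * (1 / m) =
                (u - cs D n) / D n - j / m := by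
              field_simp
              ring
            rw [e1, min_mul_of_nonneg _ _ hi0.le, e2, e0, one_mul, ← min_add_add_left]
            congr 1
            ring
    rw [Nat.mul_succ, key m le_rfl, pg_succ, div_self hm'.ne']

variable {γ : LM M}

/-- The vertices of the fine polygon of a broken geodesic loop. -/
theorem vx_itpL [NeZero K] (hU : UniqSeg M ρ) (hρ : 0 < ρ) (hK : s ^ 2 < K * ρ ^ 2)
    (hm : 0 < m) (hγ : γ ∈ XE M s) (k : ℕ) :
    vx (m * K) (itpL (sampleL K γ)) k = sy m (vx K γ) k := by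
  have hm' : (m : ℝ) ≠ 0 := by exact_mod_cast hm.ne'
  have hK' : (K : ℝ) ≠ 0 := by exact_mod_cast NeZero.ne K
  have hu : ((k % m : ℕ) : ℝ) / m ∈ Icc (0 : ℝ) 1 := by
    refine ⟨by positivity, (div_le_one (by positivity)).2 ?_⟩
    exact_mod_cast (Nat.mod_lt k hm).le
  have e1 : ((k : ℝ)) / ((m * K : ℕ) : ℝ) = (((k / m : ℕ) : ℤ) + ((k % m : ℕ) : ℝ) / m) / K := by
    have h1 : (k : ℝ) = m * ((k / m : ℕ) : ℝ) + ((k % m : ℕ) : ℝ) := by
      exact_mod_cast (Nat.div_add_mod k m).symm
    rw [h1, Nat.cast_mul, Int.cast_natCast]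
    field_simp
  have hx : E (sampleL K γ) < K * ρ ^ 2 := lt_of_le_of_lt (sampleL_mem hγ) hK
  rw [vx, e1, fn_itpL hU hρ hx, itp_apply _ _ hu, sy]
  have e2 : ∀ i : ℕ, sampleL K γ ((i : ℕ) : ZMod K) = vx K γ i := fun i =>
    sample_natCast (fn_periodic γ) i
  have e3 : (((k / m : ℕ) : ℤ) : ZMod K) = ((k / m : ℕ) : ZMod K) := Int.cast_natCast _
  rw [e3, e2, show ((k / m : ℕ) : ZMod K) + 1 = ((k / m + 1 : ℕ) : ZMod K) by push_cast; rfl, e2]

/-- The durations of the fine polygon of a broken geodesic loop. -/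
theorem du_itpL [NeZero K] (hU : UniqSeg M ρ) (hρ : 0 < ρ) (hK : s ^ 2 < K * ρ ^ 2)
    (hm : 0 < m) (hγ : γ ∈ XE M s) (k : ℕ) :
    du (m * K) η (itpL (sampleL K γ)) k = sd m (du K η γ) k := by
  have hm' : (0 : ℝ) < m := by exact_mod_cast hm
  have hK' : (K : ℝ) ≠ 0 := by exact_mod_cast NeZero.ne K
  obtain ⟨i, hi⟩ : ∃ i, i = k / m := ⟨_, rfl⟩
  obtain ⟨j, hj⟩ : ∃ j, j = k % m := ⟨_, rfl⟩
  have hk : k = m * i + j := by rw [hi, hj]; exact (Nat.div_add_mod k m).symm
  have hjm : j < m := by rw [hj]; exact Nat.mod_lt k hm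
  have hl := ln_lt hρ hK hγ i
  rw [ln] at hl
  have e0 : ((j + 1 : ℕ) : ℝ) / m = j / m + 1 / m := by push_cast; ring
  have he : ((j + 1 : ℕ) : ℝ) / m ≤ 1 := by
    rw [div_le_one hm']
    exact_mod_cast hjm
  have hi0 : (0 : ℝ) < 1 / m := by positivity
  rw [du, ln, vx_itpL hU hρ hK hm hγ, vx_itpL hU hρ hK hm hγ, hk,
    show m * i + j + 1 = m * i + (j + 1) from rfl, sy_mul hm _ i j hjm.le,
    sy_mul hm _ i (j + 1) hjm, sd_mul _ i j hjm,
    dist_seg_seg_le hU hl (by positivity) (by rw [e0]; linarith) he, du, ln, e0]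
  push_cast
  field_simp
  ring

variable [CompactSpace M]

/-- The fine polygon of the broken geodesic loop is the coarse polygon of the loop. -/
theorem fM_itpL [NeZero K] (hU : UniqSeg M ρ) (hρ : 0 < ρ) (hη : 0 < η) (hK : s ^ 2 < K * ρ ^ 2)
    (hm : 0 < m) (hγ : γ ∈ XE M s) :
    fM (m * K) η (itpL (sampleL K γ)) = fM K η γ := by
  unfold fM
  congr 1
  funext u
  rw [pg_congr (x' := sy m (vx K γ)) (Δ' := sd m (du K η γ))
    (fun i _ => vx_itpL hU hρ hK hm hγ i) fun i _ => du_itpL hU hρ hK hm hγ i]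
  exact pg_subdiv hU hm (fun i _ => du_pos (Nat.pos_of_ne_zero (NeZero.ne K)) hη i)
    (fun i _ => ln_lt hρ hK hγ i) u

theorem mul_mesh (hm : 0 < m) (hK : s ^ 2 < K * ρ ^ 2) :
    s ^ 2 < ((m * K : ℕ) : ℝ) * ρ ^ 2 := by
  refine hK.trans_le ?_
  have h1 : (1 : ℝ) ≤ m := by exact_mod_cast hm
  push_cast
  rw [mul_assoc]
  exact le_mul_of_one_le_left (by positivity) h1

/-- **Refinement.** -/
theorem Hp_refine (hU : UniqSeg M ρ) (hρ : 0 < ρ) (hη : 0 < η) (hs : 0 ≤ s)
    (hK : s ^ 2 < K * ρ ^ 2) (hm : 0 < m) :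
    Hp (XE M s) ∅ (FL M (s + η)) ∅ (fM (m * K) η) (fM K η) := by
  haveI : NeZero K := ⟨(pos_of_sq_lt hK).ne'⟩
  have hK2 := mul_mesh hm hK
  refine Hp_of_continuousOn (isCompact_XE hs) (D := fun σ γ => fM (m * K) η (MiL K σ γ)) ?_
    (fun σ hσ γ hγ => fM_mem hU hρ hη hs hK2 (MiL_mem hU hρ hK hγ hσ))
    (fun _ _ => mapsTo_empty _ _) (fun γ hγ => ?_) fun γ hγ => ?_
  · exact (continuousOn_fM hU hρ hη hs hK2).comp (continuousOn_MiL hU hρ hs hK)
      fun q hq => MiL_mem hU hρ hK hq.2 hq.1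
  · show fM (m * K) η (MiL K 0 γ) = _
    rw [MiL_zero]
  · show fM (m * K) η (MiL K 1 γ) = _
    rw [MiL_one hU hρ hK hγ]
    exact fM_itpL hU hρ hη hK hm hγ

/-- **The maps `fM` with different meshes are homotopic.** -/
theorem Hp_fM (hU : UniqSeg M ρ) (hρ : 0 < ρ) (hη : 0 < η) (hs : 0 ≤ s)
    (hK : s ^ 2 < K * ρ ^ 2) (hK' : s ^ 2 < K' * ρ ^ 2) :
    Hp (XE M s) ∅ (FL M (s + η)) ∅ (fM K η) (fM K' η) := by
  have h1 := Hp_refine hU hρ hη hs hK (pos_of_sq_lt hK')
  have h2 := Hp_refine hU hρ hη hs hK' (pos_of_sq_lt hK)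
  rw [mul_comm] at h2
  exact Hp_trans (Hp_symm h1) h2

/-- The field `f_nat` of `SpIntl`, for `f t = fM (mesh ρ t) η`. -/
theorem f_nat (hU : UniqSeg M ρ) (hρ : 0 < ρ) (hη : 0 < η) {s t : ℝ} (hs : 0 < s) (hst : s ≤ t) :
    Hp (XE M s) ∅ (FL M (t + η)) ∅ (fM (mesh ρ s) η) (fM (mesh ρ t) η) := by
  refine Hp_mono (Hp_fM hU hρ hη hs.le (lt_mesh hρ s) ?_) (FL_mono (by linarith))
  exact lt_of_le_of_lt (pow_le_pow_left₀ hs.le hst 2) (lt_mesh hρ t)

end

end Vale.Agent.P216.H388
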