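import Vale.Agent.P216.MV337.Sys

/-!
# The sweep homotopy of Moore-Lipschitz paths (P216, R2, block (G1))

Two paths `w ∈ P a b s`, `w' ∈ P a b s'` which are `r`-close after continuous time changes `σ`, `τ`
are joined in `P a b (s + s' + r)` by `sweep r σ τ w w' λ`, jointly continuous in `(w, w', λ)`.
-/

set_option linter.all false

open Set Filter Topology BoundedContinuousFunction

namespace Vale.Agent.P216.H388

open Vale.Agent.P216.PS Vale.Agent.P216.MV337
open Vale.Agent.P216.AS (IsMap IsHtpy)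
open Vale.Agent.P216.H901 (Hp tr)

section

variable {M : Type*} [MetricSpace M] [CompactSpace M] {a b : M} {ρ r s s' t τ l : ℝ}
  {w w' : ℝ →ᵇ M}

/-- The delayed path. -/
noncomputable def dly (τ : ℝ) (w : ℝ →ᵇ M) : ℝ →ᵇ M := mo fun u => w (u - τ)

omit [CompactSpace M] in
theorem lip_dly (hw : Lip w) (τ : ℝ) : Lip fun u => w (u - τ) :=
  hw.comp fun u v => by rw [sub_sub_sub_cancel_right]

theorem dly_apply (hw : Lip w) (τ u : ℝ) : dly τ w u = w (u - τ) := (lip_dly hw τ).mo_apply u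

theorem dly_mem (hw : w ∈ P a b s) (hτ : 0 ≤ τ) (h : s + τ ≤ t) : dly τ w ∈ P a b t :=
  mo_mem (lip_dly hw.1 τ) (fun u hu => hw.2.1 _ (by linarith)) fun u hu => hw.2.2 _ (by linarith)

theorem dly_zero (w : ℝ →ᵇ M) : dly 0 w = w := by
  unfold dly
  simp only [sub_zero]
  exact mo_self w

theorem continuousOn_dly {S : Type*} [TopologicalSpace S] {A : Set S} {W : S → ℝ →ᵇ M}
    {τ : S → ℝ} (ht : 0 ≤ t) (hW : ContinuousOn W A) (hτ : ContinuousOn τ A)
    (hL : ∀ x ∈ A, Lip (W x)) (hm : ∀ x ∈ A, dly (τ x) (W x) ∈ PP M t) :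
    ContinuousOn (fun x => dly (τ x) (W x)) A := by
  refine continuousOn_of_eval ht hm fun u => ?_
  exact (continuousOn_eval hW (continuousOn_const.sub hτ)).congr fun x hx => dly_apply (hL x hx) _ u

/-- **The sweep.** -/
noncomputable def sweep (r : ℝ) (σ τ : ℝ → ℝ) (w w' : ℝ →ᵇ M) (l : ℝ) : ℝ →ᵇ M :=
  if 2 * l ≤ 1 then dly (min 1 (2 * l) * r) w
  else splice r w' w (τ (max 0 (2 * l - 1))) (σ (max 0 (2 * l - 1)))

/-- The data of the time changes. -/
structure TC2 (r s s' : ℝ) (σ τ : ℝ → ℝ) : Prop where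
  r_pos : 0 < r
  s_nonneg : 0 ≤ s
  s'_nonneg : 0 ≤ s'
  σ_cont : Continuous σ
  τ_cont : Continuous τ
  σ_mem : ∀ l ∈ Icc (0 : ℝ) 1, σ l ∈ Icc 0 s
  τ_mem : ∀ l ∈ Icc (0 : ℝ) 1, τ l ∈ Icc 0 s'
  σ_zero : σ 0 = 0
  τ_zero : τ 0 = 0
  σ_one : σ 1 = s
  τ_one : τ 1 = s'

/-- The paths are close after the time changes. -/
def Cl (r : ℝ) (σ τ : ℝ → ℝ) (w w' : ℝ →ᵇ M) : Prop :=
  ∀ l ∈ Icc (0 : ℝ) 1, dist (w (σ l)) (w' (τ l)) ≤ r

variable {σ τ : ℝ → ℝ}

theorem cl1 {l : ℝ} (hl : l ∈ Icc (0 : ℝ) 1) : max 0 (2 * l - 1) ∈ Icc (0 : ℝ) 1 :=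
  ⟨le_max_left _ _, max_le zero_le_one (by linarith [hl.2])⟩

theorem sweep_mem (h : LS.UniqSeg M ρ) (H : TC2 r s s' σ τ) (hrρ : r < ρ) (hw : w ∈ P a b s)
    (hw' : w' ∈ P a b s') (hc : Cl r σ τ w w') (hl : l ∈ Icc (0 : ℝ) 1) :
    sweep r σ τ w w' l ∈ P a b (s + s' + r) := by
  have hr := H.r_pos
  unfold sweep
  split_ifs with h1
  · have h2 : min 1 (2 * l) * r ≤ r := mul_le_of_le_one_left hr.le (min_le_left _ _)
    refine dly_mem hw (mul_nonneg (le_min zero_le_one (by linarith [hl.1])) hr.le) ?_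
    linarith [H.s'_nonneg]
  · have hm := cl1 hl
    have hσ := H.σ_mem _ hm
    have hτ := H.τ_mem _ hm
    refine P_mono ?_ (splice_mem (t := s) h hr hrρ hw'.1 hw.1 ?_ hτ.1 hσ.2 hw'.2.1 hw.2.2)
    · linarith [hσ.1, hτ.2]
    · rw [dist_comm]
      exact hc _ hm

theorem sweep_zero (σ τ : ℝ → ℝ) (w w' : ℝ →ᵇ M) : sweep r σ τ w w' 0 = w := by
  unfold sweep
  rw [if_pos (by norm_num), mul_zero, min_eq_right zero_le_one, zero_mul, dly_zero]

theorem splice_start (hr : 0 < r) (hw : w ∈ P a b s) (hw' : w' ∈ P a b s') :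
    splice r w' w 0 0 = dly r w := by
  unfold splice dly
  congr 1
  funext u
  rcases le_total u 0 with h0 | h0
  · rw [spl_left h0, hw'.2.1 u h0, hw.2.1 _ (by linarith)]
  rcases le_total u (0 + r) with h1 | h1
  · rw [spl_mid h0 h1, hw'.2.1 0 le_rfl, hw.2.1 0 le_rfl, hw.2.1 _ (by linarith)]
    exact LS.seg_self _ _
  · rw [spl_right hr h1]
    congr 1
    ring

theorem splice_stop (hr : 0 < r) (hw : w ∈ P a b s) (hw' : w' ∈ P a b s') :
    splice r w' w s' s = w' := by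
  unfold splice
  have : spl r w' w s' s = fun u => w' u := by
    funext u
    rcases le_total u s' with h0 | h0
    · rw [spl_left h0]
    rcases le_total u (s' + r) with h1 | h1
    · rw [spl_mid h0 h1, hw'.2.2 s' le_rfl, hw.2.2 s le_rfl, hw'.2.2 u h0]
      exact LS.seg_self _ _
    · rw [spl_right hr h1, hw.2.2 _ (by linarith), hw'.2.2 u h0]
  rw [this, mo_self]

theorem sweep_one (H : TC2 r s s' σ τ) (hw : w ∈ P a b s) (hw' : w' ∈ P a b s') :
    sweep r σ τ w w' 1 = w' := by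
  unfold sweep
  rw [if_neg (by norm_num)]
  have : max 0 (2 * (1:ℝ) - 1) = 1 := by norm_num
  rw [this, H.σ_one, H.τ_one]
  exact splice_stop H.r_pos hw hw'

/-- **Joint continuity.** -/
theorem continuousOn_sweep (h : LS.UniqSeg M ρ) (H : TC2 r s s' σ τ) (hrρ : r < ρ) {S : Type*}
    [TopologicalSpace S] {A : Set S} {W W' : S → ℝ →ᵇ M} {L : S → ℝ} {a b : S → M}
    (hW : ContinuousOn W A) (hW' : ContinuousOn W' A) (hL : ContinuousOn L A)
    (hm : ∀ x ∈ A, W x ∈ P (a x) (b x) s) (hm' : ∀ x ∈ A, W' x ∈ P (a x) (b x) s')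
    (hc : ∀ x ∈ A, Cl r σ τ (W x) (W' x)) (hL1 : ∀ x ∈ A, L x ∈ Icc (0 : ℝ) 1) :
    ContinuousOn (fun x => sweep r σ τ (W x) (W' x) (L x)) A := by
  have hr := H.r_pos
  have hs := H.s_nonneg
  have hs' := H.s'_nonneg
  unfold sweep
  refine PS.ContinuousOn.if_le' ?_ ?_ (continuousOn_const.mul hL) continuousOn_const
    fun x hx he => ?_
  · refine continuousOn_dly (t := s + r) (by linarith) hW ?_ (fun x hx => (hm x hx).1)
      fun x hx => ?_
    · exact (continuousOn_const.inf (continuousOn_const.mul hL)).mul continuousOn_const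
    · have h2 : min 1 (2 * L x) * r ≤ r := mul_le_of_le_one_left hr.le (min_le_left _ _)
      exact P_subset_PP (dly_mem (hm x hx) (mul_nonneg (le_min zero_le_one
        (by linarith [(hL1 x hx).1])) hr.le) (by linarith))
  · have hc1 : ContinuousOn (fun x => max 0 (2 * L x - 1)) A :=
      continuousOn_const.sup ((continuousOn_const.mul hL).sub continuousOn_const)
    refine continuousOn_splice (t := s' + r + s) h hr hrρ (by linarith) hW' hW
      (H.τ_cont.comp_continuousOn hc1) (H.σ_cont.comp_continuousOn hc1) (fun x hx => ?_)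
      (fun x hx => (hm' x hx).1) (fun x hx => (hm x hx).1) fun x hx => ?_
    · rw [dist_comm]
      exact hc x hx _ (cl1 (hL1 x hx))
    · have hσ := H.σ_mem _ (cl1 (hL1 x hx))
      have hτ := H.τ_mem _ (cl1 (hL1 x hx))
      refine P_subset_PP (P_mono ?_ (splice_mem (t := s) h hr hrρ (hm' x hx).1 (hm x hx).1 ?_
        hτ.1 hσ.2 (hm' x hx).2.1 (hm x hx).2.2))
      · linarith [hσ.1, hτ.2]
      · rw [dist_comm]
        exact hc x hx _ (cl1 (hL1 x hx))
  · rw [he, min_self, one_mul, sub_self, max_self, H.σ_zero, H.τ_zero]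
    exact (splice_start hr (hm x hx) (hm' x hx)).symm

end

/-- **The sweep as a homotopy of maps** (possibly of pairs). -/
theorem hp_sweep {M : Type} [MetricSpace M] [CompactSpace M] {ρ r s s' : ℝ} {σ τ : ℝ → ℝ}
    (h : LS.UniqSeg M ρ) (H : TC2 r s s' σ τ) (hrρ : r < ρ) {E : Type} [PseudoMetricSpace E]
    {A A' : Set E} (hA : IsCompact A) (hA' : A' ⊆ A) {B B' : Set (ℝ →ᵇ M)} {F F' : E → ℝ →ᵇ M}
    {a b : E → M} (hF : ContinuousOn F A) (hF' : ContinuousOn F' A)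
    (hm : ∀ x ∈ A, F x ∈ P (a x) (b x) s) (hm' : ∀ x ∈ A, F' x ∈ P (a x) (b x) s')
    (hc : ∀ x ∈ A, Cl r σ τ (F x) (F' x)) (hB : ∀ x ∈ A, P (a x) (b x) (s + s' + r) ⊆ B)
    (hB' : ∀ x ∈ A', P (a x) (b x) (s + s' + r) ⊆ B') : Hp A A' B B' F F' := by
  refine hp_of_cont hA (F := fun p => sweep r σ τ (F p.2) (F' p.2) p.1) ?_ ?_ ?_ ?_ ?_
  · exact continuousOn_sweep (a := fun p : ℝ × E => a p.2) (b := fun p => b p.2) h H hrρ
      (hF.comp continuousOn_snd fun p hp => hp.2) (hF'.comp continuousOn_snd fun p hp => hp.2)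
      continuousOn_fst (fun p hp => hm p.2 hp.2) (fun p hp => hm' p.2 hp.2)
      (fun p hp => hc p.2 hp.2) fun p hp => hp.1
  · exact fun l hl x hx => hB x hx (sweep_mem h H hrρ (hm x hx) (hm' x hx) (hc x hx) hl)
  · exact fun l hl x hx => hB' x hx (sweep_mem h H hrρ (hm x (hA' hx)) (hm' x (hA' hx))
      (hc x (hA' hx)) hl)
  · exact fun x hx => sweep_zero σ τ (F x) (F' x)
  · exact fun x hx => sweep_one H (hm x hx) (hm' x hx)

end Vale.Agent.P216.H388
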