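import Vale.Agent.P216.H388.CollR
import Vale.Agent.P216.H388.Sweep
import Vale.Agent.P216.H962.Inst

/-!
# The slant and the symmetry (P216, R2, block (G6))

`opL_R`: `L ρ = - ρ L` for the operator `L` of `H962/Inst` and the pullback `ρ` by an approximation
`R` of `w ↦ f ∘ w`, `f` the reflection of the symmetric caps.
-/

set_option linter.all false

open Set Filter Topology BoundedContinuousFunction

namespace Vale.Agent.P216.H388

open Vale.Agent.P216.PS Vale.Agent.P216.MV337 Vale.Agent.P216.H456 Vale.Agent.P216.H962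
open Vale.Agent.P216.AS
open Vale.Agent.P216.H901 (tr on rf rf_rf Sl_rf rf_out rf_mem_Bg rf_mem_Jc)

/-- `R` approximates `w ↦ f ∘ w`, with time dilated by `κ`. -/
structure ApxD {M : Type} [MetricSpace M] (f : M → M) (κ η η' : ℝ)
    (R : (ℝ →ᵇ M) → (ℝ →ᵇ M)) : Prop where
  κ_pos : 0 < κ
  η_nonneg : 0 ≤ η
  mem : ∀ {a b : M} {s : ℝ} {w : ℝ →ᵇ M}, 0 ≤ s → w ∈ P a b s → R w ∈ P (f a) (f b) (κ * s + η)
  close : ∀ {w : ℝ →ᵇ M}, Lip w → ∀ v, dist (R w (κ * v)) (f (w v)) ≤ η'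
  cont : ∀ {a b : M} {s : ℝ}, 0 ≤ s → ContinuousOn R (P a b s)

/-! ### The time change -/

/-- the time of `sL x g` which corresponds to the time `u` of `sL (f x) (R g)` -/
noncomputable def vt (κ l u : ℝ) : ℝ := min u l + max 0 (u - l) / κ

theorem vt_left {κ l u : ℝ} (h : u ≤ l) : vt κ l u = u := by
  unfold vt
  rw [min_eq_left h, max_eq_left (by linarith), zero_div, add_zero]

theorem vt_right {κ l u : ℝ} (h : l ≤ u) : vt κ l u = l + (u - l) / κ := by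
  unfold vt
  rw [min_eq_right h, max_eq_right (by linarith)]

theorem vt_mono {κ l : ℝ} (hκ : 0 < κ) : Monotone (vt κ l) := fun u v h =>
  add_le_add (min_le_min h le_rfl)
    (div_le_div_of_nonneg_right (max_le_max le_rfl (by linarith)) hκ.le)

theorem continuous_vt (κ l : ℝ) : Continuous (vt κ l) := by
  unfold vt
  fun_prop

theorem tc2 {κ η l s r : ℝ} (hκ : 0 < κ) (hη : 0 ≤ η) (hl : 0 ≤ l) (hs : 0 ≤ s) (hr : 0 < r) :
    TC2 r (κ * (s + l) + η) (κ * s + η + l)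
      (fun x => κ * vt κ l (x * (κ * s + η + l))) (fun x => x * (κ * s + η + l)) := by
  have h1 : 0 ≤ κ * s + η + l := by positivity
  have e1 : κ * vt κ l (κ * s + η + l) = κ * (s + l) + η := by
    rw [vt_right (by linarith [mul_nonneg hκ.le hs])]
    field_simp
    ring
  have e0 : κ * vt κ l 0 = 0 := by rw [vt_left hl, mul_zero]
  have hm : Monotone fun u => κ * vt κ l u := fun u v h => mul_le_mul_of_nonneg_left
    (vt_mono hκ h) hκ.le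
  refine ⟨hr, by positivity, h1, ?_, by fun_prop, ?_, ?_, ?_, ?_, ?_, ?_⟩
  · exact continuous_const.mul ((continuous_vt κ l).comp (by fun_prop))
  · intro x hx
    have h2 : 0 ≤ x * (κ * s + η + l) := mul_nonneg hx.1 h1
    have h3 : x * (κ * s + η + l) ≤ κ * s + η + l := mul_le_of_le_one_left h1 hx.2
    have h4 := hm h2
    have h5 := hm h3
    simp only at h4 h5
    exact ⟨by linarith, by linarith⟩
  · intro x hx
    exact ⟨mul_nonneg hx.1 h1, mul_le_of_le_one_left h1 hx.2⟩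
  · show κ * vt κ l (0 * _) = 0
    rw [zero_mul, e0]
  · show 0 * _ = (0:ℝ)
    rw [zero_mul]
  · show κ * vt κ l (1 * _) = _
    rw [one_mul, e1]
  · show 1 * _ = _
    rw [one_mul]

section

variable {M : Type} [MetricSpace M] [CompactSpace M] {x₀ : M} {ℓ κ η η' ε r ρ : ℝ}
  {Tp Tm : M → ℝ → M} {m : ℕ} {i : Fin m} {C : RCaps (m + 1) M x₀ i.castSucc}
  {D : ℝ → (Fin (m + 1) → ℝ) → (Fin (m + 1) → ℝ)} {b : Fin (m + 1) → ℝ}
  {R : (ℝ →ᵇ M) → (ℝ →ᵇ M)}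

/-- `f ∘ σ_x` and `σ_(f x)` are close. -/
theorem dist_sig (hp : Tr C.Dp x₀ ℓ Tp) (hm : Tr C.Dm x₀ ℓ Tm)
    (ep : ∀ x ∈ C.Dp, ∀ u, dist (C.f (Tp x u)) (Tp (C.f x) u) ≤ ε)
    (em : ∀ x ∈ C.Dm, ∀ u, dist (C.f (Tm x u)) (Tm (C.f x) u) ≤ ε) {x : M}
    (hx : x ∈ C.Dp ∩ C.Dm) (u : ℝ) :
    dist (C.f (sig Tp Tm ℓ x u)) (sig Tp Tm ℓ (C.f x) u) ≤ ε := by
  unfold sig catf
  split_ifs
  · exact ep x hx.1 _
  · exact em x hx.2 _

/-- `R (σ_x⁻¹ g)` and `σ_(f x)⁻¹ (R g)` are close after the time change. -/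
theorem cl_sL (hR : ApxD C.f κ η η' R) (hp : Tr C.Dp x₀ ℓ Tp) (hm : Tr C.Dm x₀ ℓ Tm)
    (ep : ∀ x ∈ C.Dp, ∀ u, dist (C.f (Tp x u)) (Tp (C.f x) u) ≤ ε)
    (em : ∀ x ∈ C.Dm, ∀ u, dist (C.f (Tm x u)) (Tm (C.f x) u) ≤ ε) (h1 : η' + ε ≤ r)
    (h2 : η' + η' ≤ r) {x : M} (hx : x ∈ C.Dp ∩ C.Dm) {s : ℝ} (hs : 0 ≤ s) {g : ℝ →ᵇ M}
    (hg : g ∈ P x₀ x₀ s) :
    Cl r (fun y => κ * vt κ (2 * ℓ) (y * (κ * s + η + 2 * ℓ)))
      (fun y => y * (κ * s + η + 2 * ℓ)) (R (sL Tp Tm ℓ x g)) (sL Tp Tm ℓ (C.f x) (R g)) := by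
  have hp' := hp.mono (D := C.Dp ∩ C.Dm) inter_subset_left
  have hm' := hm.mono (D := C.Dp ∩ C.Dm) inter_subset_right
  have hfx : C.f x ∈ C.Dp ∩ C.Dm := ⟨(C.f_Dp x).2 hx.1, (C.f_Dm x).2 hx.2⟩
  have hκ := hR.κ_pos
  have hRg : R g ∈ P x₀ x₀ (κ * s + η) := by
    have := hR.mem hs hg
    rwa [C.f_x₀] at this
  have hsL := sL_mem hp' hm' hx hs hg
  intro y hy
  simp only
  set u := y * (κ * s + η + 2 * ℓ) with hu
  have h3 := hR.close hsL.1 (vt κ (2 * ℓ) u)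
  rw [sL_apply hp' hm' hx hg] at h3
  rw [sL_apply hp' hm' hfx hRg]
  have e0 : g 0 = sig Tp Tm ℓ x 0 := (eq_left hg le_rfl).trans (sig_zero hp' hx).symm
  have e0' : (R g) 0 = sig Tp Tm ℓ (C.f x) 0 :=
    (eq_left hRg le_rfl).trans (sig_zero hp' hfx).symm
  rcases le_total u (2 * ℓ) with h | h
  · rw [vt_left h] at h3 ⊢
    rw [lj_left h] at h3 ⊢
    have h4 := dist_sig hp hm ep em hx (2 * ℓ - u)
    exact (dist_triangle _ _ _).trans ((add_le_add h3 h4).trans h1)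
  · rw [vt_right h] at h3 ⊢
    have h5 : 0 ≤ (u - 2 * ℓ) / κ := div_nonneg (by linarith) hκ.le
    rw [lj_right e0 (by linarith), add_sub_cancel_left] at h3
    rw [lj_right e0' h]
    have h4 := hR.close hg.1 ((u - 2 * ℓ) / κ)
    have e : κ * ((u - 2 * ℓ) / κ) = u - 2 * ℓ := by field_simp
    rw [e, dist_comm] at h4
    exact (dist_triangle _ _ _).trans ((add_le_add h3 h4).trans h2)

theorem um_R (hR : ApxD C.f κ η η' R) {s T : ℝ} (hs : 0 ≤ s) (hT : κ * s + η ≤ T) :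
    UM (P x₀ x₀ s) (P x₀ x₀ T) R :=
  UM.of_compact (isCompact_P _ _ _) (hR.cont hs) fun w hw => by
    have := hR.mem hs hw
    rw [C.f_x₀] at this
    exact P_mono hT this

/-- **(G6)** `L ρ = - ρ L`. -/
theorem opL_R {k : Type} [Field k] (h2 : (2 : k) ≠ 0) (hm1 : 1 ≤ m) (hU : LS.UniqSeg M ρ)
    (hR : ApxD C.f κ η η' R) (hp : Tr C.Dp x₀ ℓ Tp) (hm : Tr C.Dm x₀ ℓ Tm) (hC : Coll m D b)
    (hD : ∀ s y, D s (rf i.castSucc y) = rf i.castSucc (D s y))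
    (ep : ∀ x ∈ C.Dp, ∀ u, dist (C.f (Tp x u)) (Tp (C.f x) u) ≤ ε)
    (em : ∀ x ∈ C.Dm, ∀ u, dist (C.f (Tm x u)) (Tm (C.f x) u) ≤ ε) (hr : 0 < r) (hrρ : r < ρ)
    (h3 : η' + ε ≤ r) (h4 : η' + η' ≤ r) {s T T' : ℝ} (hs : 0 < s) (hT0 : 0 < T)
    (hT : κ * s + η ≤ T) (hTT : T + 2 * ℓ ≤ T')
    (hT' : κ * (s + 2 * ℓ) + η + (κ * s + η + 2 * ℓ) + r ≤ T')
    (m1 : IsMap (tr (ℝ →ᵇ M)) (tr (ℝ →ᵇ M)) (P x₀ x₀ (s + 2 * ℓ)) (P x₀ x₀ T') R)
    (m2 : IsMap (tr (ℝ →ᵇ M)) (tr (ℝ →ᵇ M)) (P x₀ x₀ s) (P x₀ x₀ T) R) (q : ℕ)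
    (z : HP k x₀ (q + m) T') :
    opL h2 hm1 hp hm hC q s hs (pull (on k) m1 (q + m) z) =
      -pull (on k) m2 q (opL h2 hm1 hp hm hC q T hT0 (res (P_mono hTT) (q + m) z)) := by
  have hp' := hp.mono (D := C.Dp ∩ C.Dm) inter_subset_left
  have hm' := hm.mono (D := C.Dp ∩ C.Dm) inter_subset_right
  have hl : 0 ≤ 2 * ℓ := by linarith [hp.nonneg]
  have hκ := hR.κ_pos
  have hη := hR.η_nonneg
  have hLs := isFm_L (t := s) hp hm hC hs.le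
  have hLT := isFm_L (t := T) hp hm hC hT0.le
  have uR2 := um_R hR hs.le hT
  have uR1 : UM (P x₀ x₀ (s + 2 * ℓ)) (P x₀ x₀ T') R := ⟨m1.mapsX, m1.uc⟩
  -- the two families
  have f1 : IsFm (P x₀ x₀ s) (P x₀ x₀ T') (R ∘ FmL C.toCaps Tp Tm ℓ D)
      (R ∘ sL Tp Tm ℓ (C.ψ b)) := hLs.comp uR1
  have f2 : IsFm (P x₀ x₀ s) (P x₀ x₀ T') (FmL C.toCaps Tp Tm ℓ D ∘ Prod.map R id)
      (sL Tp Tm ℓ (C.ψ b) ∘ R) := (hLT.mono_right (P_mono hTT)).pre uR2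
  have f3 := f2.rf i
  -- the left side
  have e1 : opL h2 hm1 hp hm hC q s hs (pull (on k) m1 (q + m) z) = Sl h2 hm1 f1 q z :=
    Sl_pull h2 hm1 hLs m1 f1 (fun _ _ _ _ => rfl) (fun _ _ => rfl) q z
  -- the right side
  have e2 : pull (on k) m2 q (opL h2 hm1 hp hm hC q T hT0 (res (P_mono hTT) (q + m) z)) =
      Sl h2 hm1 f2 q z := by
    have hid : IsMap (tr (ℝ →ᵇ M)) (tr (ℝ →ᵇ M)) (P x₀ x₀ (T + 2 * ℓ)) (P x₀ x₀ T') id :=
      IsMap.id_of_subset (P_mono hTT)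
    have e3 : (res (P_mono hTT) (q + m) z : HP k x₀ (q + m) (T + 2 * ℓ)) =
        pull (on k) hid (q + m) z := by
      rw [pull_eq_res (P_mono hTT) hid fun _ _ => rfl]
    have e4 : opL h2 hm1 hp hm hC q T hT0 (res (P_mono hTT) (q + m) z) =
        Sl h2 hm1 (hLT.mono_right (P_mono hTT)) q z := by
      rw [e3]
      exact Sl_pull h2 hm1 hLT hid (hLT.mono_right (P_mono hTT)) (fun _ _ _ _ => rfl)
        (fun _ _ => rfl) q z
    rw [e4]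
    exact pull_Sl h2 hm1 (hLT.mono_right (P_mono hTT)) m2 f2 (fun _ _ _ _ => rfl)
      (fun _ _ => rfl) q z
  have e5 : Sl h2 hm1 f3 q z = -Sl h2 hm1 f2 q z :=
    Sl_rf h2 hm1 f2 i f3 (fun _ _ _ _ => rfl) (fun _ _ => rfl) q z
  rw [e1, e2, ← e5]
  -- the homotopy
  set σ : ℝ → ℝ := fun y => κ * vt κ (2 * ℓ) (y * (κ * s + η + 2 * ℓ)) with hσ
  set τ : ℝ → ℝ := fun y => y * (κ * s + η + 2 * ℓ) with hτ
  have H : TC2 r (κ * (s + 2 * ℓ) + η) (κ * s + η + 2 * ℓ) σ τ := tc2 hκ hη hl hs.le hr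
  have hxx : ∀ v, xx C.toCaps D (rf i v) = C.f (xx C.toCaps D v) := xx_rf C hD
  have k1 : ∀ g ∈ P x₀ x₀ s, ∀ v, R (FmL C.toCaps Tp Tm ℓ D (g, v)) ∈
      P x₀ x₀ (κ * (s + 2 * ℓ) + η) := by
    intro g hg v
    have := hR.mem (by linarith) (sL_mem hp' hm' (xx_mem C.toCaps hC v) hs.le hg)
    rwa [C.f_x₀] at this
  have k2 : ∀ g ∈ P x₀ x₀ s, ∀ v, FmL C.toCaps Tp Tm ℓ D (R g, rf i v) ∈
      P x₀ x₀ (κ * s + η + 2 * ℓ) := by
    intro g hg v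
    have h5 := hR.mem hs.le hg
    rw [C.f_x₀] at h5
    exact sL_mem hp' hm' (xx_mem C.toCaps hC (rf i v))
      (by linarith [mul_nonneg hκ.le hs.le]) h5
  have k3 : ∀ g ∈ P x₀ x₀ s, ∀ v, Cl r σ τ (R (FmL C.toCaps Tp Tm ℓ D (g, v)))
      (FmL C.toCaps Tp Tm ℓ D (R g, rf i v)) := by
    intro g hg v
    have := cl_sL hR hp hm ep em h3 h4 (xx_mem C.toCaps hC v) hs.le hg
    unfold FmL
    simp only
    rw [hxx]
    exact this
  refine LinearMap.congr_fun (Sl_htpy h2 hm1 f1 f3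
    (D := fun p => sweep r σ τ (R (FmL C.toCaps Tp Tm ℓ D (p.1.1, p.1.2)))
      (FmL C.toCaps Tp Tm ℓ D (R p.1.1, rf i p.1.2)) p.2)
    (D₀ := fun p => sweep r σ τ (R (sL Tp Tm ℓ (C.ψ b) p.1)) (sL Tp Tm ℓ (C.ψ b) (R p.1)) p.2)
    ?_ ?_ ?_ ?_ q) z
  · refine UM.of_compact (((isCompact_P _ _ _).prod (isCompact_Jc m)).prod isCompact_Icc) ?_ ?_
    · have c1 : ContinuousOn (fun p : ((ℝ →ᵇ M) × (Fin m → ℝ)) × ℝ =>
          FmL C.toCaps Tp Tm ℓ D (p.1.1, p.1.2)) ((P x₀ x₀ s ×ˢ Jc m) ×ˢ Icc (0 : ℝ) 1) :=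
        continuousOn_sL hp' hm' hs.le ((continuous_xx C.toCaps hC).comp_continuousOn
          (continuousOn_snd.comp continuousOn_fst fun p hp => hp.1))
          (continuousOn_fst.comp continuousOn_fst fun p hp => hp.1)
          (fun p _ => xx_mem C.toCaps hC _) fun p hp => hp.1.1
      have c2 : ContinuousOn (fun p : ((ℝ →ᵇ M) × (Fin m → ℝ)) × ℝ => R p.1.1)
          ((P x₀ x₀ s ×ˢ Jc m) ×ˢ Icc (0 : ℝ) 1) :=
        (hR.cont hs.le).comp (continuousOn_fst.comp continuousOn_fst fun p hp => hp.1)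
          fun p hp => hp.1.1
      have c3 : ContinuousOn (fun p : ((ℝ →ᵇ M) × (Fin m → ℝ)) × ℝ => xx C.toCaps D (rf i p.1.2))
          ((P x₀ x₀ s ×ˢ Jc m) ×ˢ Icc (0 : ℝ) 1) := by
        refine (ContinuousOn.congr (f := fun p => C.f (xx C.toCaps D p.1.2)) ?_
          fun p _ => hxx _)
        exact C.f_cont.comp_continuousOn ((continuous_xx C.toCaps hC).comp_continuousOn
          (continuousOn_snd.comp continuousOn_fst fun p hp => hp.1))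
      refine continuousOn_sweep (a := fun _ => x₀) (b := fun _ => x₀) hU H hrρ ?_ ?_
        continuousOn_snd ?_ ?_ ?_ fun p hp => hp.2
      · exact (hR.cont (by linarith)).comp c1 fun p hp =>
          sL_mem hp' hm' (xx_mem C.toCaps hC p.1.2) hs.le hp.1.1
      · exact continuousOn_sL (t := κ * s + η) hp' hm'
          (by linarith [mul_nonneg hκ.le hs.le]) c3 c2 (fun p _ => xx_mem C.toCaps hC _)
          fun p hp => by
            have h5 := hR.mem hs.le hp.1.1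
            rwa [C.f_x₀] at h5
      · exact fun p hp => k1 _ hp.1.1 _
      · exact fun p hp => k2 _ hp.1.1 _
      · exact fun p hp => k3 _ hp.1.1 _
    · intro p hp
      exact P_mono hT' (sweep_mem hU H hrρ (k1 _ hp.1.1 _) (k2 _ hp.1.1 _) (k3 _ hp.1.1 _) hp.2)
  · intro g hg v hv y hy
    have ho := out_of_bJ hv
    simp only
    have e6 : FmL C.toCaps Tp Tm ℓ D (g, v) = sL Tp Tm ℓ (C.ψ b) g :=
      hLs.out g hg v (Jc_sub_Bg m (bJ_sub m hv)) ho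
    have e7 : FmL C.toCaps Tp Tm ℓ D (R g, rf i v) = sL Tp Tm ℓ (C.ψ b) (R g) :=
      hLT.out (R g) (uR2.maps hg) _ (rf_mem_Bg (Jc_sub_Bg m (bJ_sub m hv))) (rf_out ho)
    rw [e6, e7]
  · intro g hg v hv
    exact sweep_zero σ τ _ _
  · intro g hg v hv
    exact sweep_one H (k1 g hg v) (k2 g hg v)

end

end Vale.Agent.P216.H388
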