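import Vale.Agent.P216.H388.Sph
import Vale.Agent.P216.H901.Refl

/-!
# Caps of a sphere which are symmetric under a reflection (P216, R2, block (G0))

`RCaps n M x₀ i`: caps with an involution `f` of `M`, which fixes `x₀`, preserves `D₊` and `D₋`,
acts on the coordinates of `D₊` as the reflection of the `i`-th coordinate and commutes with the
nullhomotopies. `exists_rcaps`: existence for spheres of dimension at least `2`.
-/

namespace Vale.Agent.P216.H388

open Set MV337
open Vale.Agent.P216.H901 (rf)

/-- Caps which are symmetric under the involution `f`, the reflection of the coordinate `i`. -/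
structure RCaps (n : ℕ) (M : Type) [TopologicalSpace M] (x₀ : M) (i : Fin n) extends
    Caps n M x₀ where
  f : M → M
  f_cont : Continuous f
  f_f : ∀ x, f (f x) = x
  f_x₀ : f x₀ = x₀
  f_xm : f xm = xm
  f_Dp : ∀ x, f x ∈ Dp ↔ x ∈ Dp
  f_Dm : ∀ x, f x ∈ Dm ↔ x ∈ Dm
  φ_f : ∀ x, φ (f x) = rf i (φ x)
  ψ_f : ∀ y, ψ (rf i y) = f (ψ y)
  Hp_f : ∀ x s, Hp (f x, s) = f (Hp (x, s))
  Hm_f : ∀ x s, Hm (f x, s) = f (Hm (x, s))
  Km_f : ∀ x s, Km (f x, s) = f (Km (x, s))

noncomputable section

variable {n : ℕ}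

/-- The reflection of a coordinate. -/
def rE (i : Fin n) : En n ≃ₗᵢ[ℝ] En n :=
  LinearIsometryEquiv.piLpCongrRight 2 fun j =>
    if j = i.castSucc then LinearIsometryEquiv.neg ℝ else LinearIsometryEquiv.refl ℝ ℝ

theorem rE_same (i : Fin n) (v : En n) : rE i v i.castSucc = -v i.castSucc := by
  simp [rE]

theorem rE_ne {i : Fin n} {j : Fin (n + 1)} (h : j ≠ i.castSucc) (v : En n) :
    rE i v j = v j := by
  simp [rE, h]

theorem rE_last (i : Fin n) (v : En n) : rE i v (Fin.last n) = v (Fin.last n) :=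
  rE_ne (Fin.castSucc_lt_last i).ne' v

theorem rE_rE (i : Fin n) (v : En n) : rE i (rE i v) = v := by
  ext j
  by_cases h : j = i.castSucc
  · subst h
    rw [rE_same, rE_same, neg_neg]
  · rw [rE_ne h, rE_ne h]

theorem rE_pole (i : Fin n) : rE i (pole n) = pole n := by
  ext j
  by_cases h : j = i.castSucc
  · subst h
    rw [rE_same, pole_castSucc, neg_zero]
  · rw [rE_ne h]

/-- The reflection of the sphere. -/
def rS (i : Fin n) (x : Metric.sphere (0 : En n) 1) : Metric.sphere (0 : En n) 1 :=
  ⟨rE i x, by simp⟩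

theorem rS_val (i : Fin n) (x : Metric.sphere (0 : En n) 1) : (rS i x : En n) = rE i x := rfl

theorem continuous_rS (i : Fin n) : Continuous (rS i) :=
  Continuous.subtype_mk ((rE i).continuous.comp continuous_subtype_val) _

theorem rS_rS (i : Fin n) (x : Metric.sphere (0 : En n) 1) : rS i (rS i x) = x := by
  ext1
  rw [rS_val, rS_val, rE_rE]

theorem nz_zero : (nz (0 : En n) : En n) = pole n := by
  unfold nz
  rw [dif_neg (by simp)]

theorem nz_rE (i : Fin n) (v : En n) : nz (rE i v) = rS i (nz v) := by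
  ext1
  by_cases h : v = 0
  · subst h
    rw [map_zero, rS_val, nz_zero, rE_pole]
  · have h' : rE i v ≠ 0 := by
      intro h0
      exact h ((map_eq_zero_iff (rE i) (rE i).injective).1 h0)
    rw [rS_val, nz_val h, nz_val h', LinearIsometryEquiv.norm_map, map_smul]

theorem rE_vec (i : Fin n) (y : Fin n → ℝ) : vec (rf i y) = rE i (vec y) := by
  ext j
  refine Fin.lastCases ?_ (fun j => ?_) j
  · rw [rE_last, vec_last, vec_last]
  · by_cases h : j = i
    · subst h
      rw [rE_same, vec_castSucc, vec_castSucc, H901.rf_same]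
      ring
    · rw [rE_ne (fun e => h (Fin.castSucc_injective _ e)), vec_castSucc, vec_castSucc,
        H901.rf_ne h]

section

variable {M : Type} [TopologicalSpace M] (h : M ≃ₜ Metric.sphere (0 : En n) 1)

/-- The reflection of `M`. -/
def rM (i : Fin n) (x : M) : M := h.symm (rS i (h x))

theorem h_rM (i : Fin n) (x : M) : h (rM h i x) = rS i (h x) := h.apply_symm_apply _

theorem continuous_rM (i : Fin n) : Continuous (rM h i) :=
  h.symm.continuous.comp ((continuous_rS i).comp h.continuous)

theorem rM_rM (i : Fin n) (x : M) : rM h i (rM h i x) = x := by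
  unfold rM
  rw [h.apply_symm_apply, rS_rS, h.symm_apply_apply]

theorem rM_symm (i : Fin n) (v : En n) : rM h i (h.symm (nz v)) = h.symm (nz (rE i v)) := by
  unfold rM
  rw [h.apply_symm_apply, nz_rE]

theorem co_rM_same (i : Fin n) (x : M) : co h (rM h i x) i.castSucc = -co h x i.castSucc := by
  unfold co
  rw [h_rM, rS_val, rE_same]

theorem co_rM_ne {i : Fin n} {j : Fin (n + 1)} (hj : j ≠ i.castSucc) (x : M) :
    co h (rM h i x) j = co h x j := by
  unfold co
  rw [h_rM, rS_val, rE_ne hj]

theorem co_rM_last (i : Fin n) (x : M) : co h (rM h i x) (Fin.last n) = co h x (Fin.last n) :=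
  co_rM_ne h (Fin.castSucc_lt_last i).ne' x

theorem abs_co_rM (i : Fin n) (j : Fin (n + 1)) (x : M) : |co h (rM h i x) j| = |co h x j| := by
  by_cases hj : j = i.castSucc
  · subst hj
    rw [co_rM_same, abs_neg]
  · rw [co_rM_ne h hj]

theorem rM_Dp (i : Fin n) (x : M) : rM h i x ∈ Dp h ↔ x ∈ Dp h := by
  simp only [Dp, mem_ofPred_eq, abs_co_rM, co_rM_last]

theorem rM_Dm (i : Fin n) (x : M) : rM h i x ∈ Dm h ↔ x ∈ Dm h := by
  simp only [Dm, mem_ofPred_eq, abs_co_rM, co_rM_last]

theorem hom_rM (i : Fin n) (c : ℝ) (x : M) (s : ℝ) :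
    hom h c (rM h i x, s) = rM h i (hom h c (x, s)) := by
  unfold hom
  rw [rM_symm, map_add, map_smul, map_smul, rE_pole]
  simp only [h_rM, rS_val]

/-- the great half circle from the pole to its opposite -/
def arc (j : Fin n) (s : ℝ) : En n :=
  Real.cos (Real.pi * s) • pole n + Real.sin (Real.pi * s) • EuclideanSpace.single j.castSucc 1

theorem continuous_arc (j : Fin n) : Continuous (arc (n := n) j) := by
  unfold arc
  fun_prop

theorem arc_last (j : Fin n) (s : ℝ) : arc j s (Fin.last n) = Real.cos (Real.pi * s) := by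
  simp [arc, pole_last, (Fin.castSucc_lt_last j).ne']

theorem arc_same (j : Fin n) (s : ℝ) : arc j s j.castSucc = Real.sin (Real.pi * s) := by
  simp [arc, pole_castSucc]

theorem arc_ne (j : Fin n) (s : ℝ) : arc j s ≠ 0 := by
  intro h0
  have h1 := arc_last j s
  have h2 := arc_same j s
  rw [h0] at h1 h2
  have h3 := Real.sin_sq_add_cos_sq (Real.pi * s)
  rw [← h1, ← h2] at h3
  simp at h3

theorem rE_arc {i j : Fin n} (hij : i ≠ j) (s : ℝ) : rE i (arc j s) = arc j s := by
  ext l
  by_cases hl : l = i.castSucc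
  · subst hl
    rw [rE_same]
    have : arc j s i.castSucc = 0 := by
      simp [arc, pole_castSucc]
      exact fun e => absurd e hij
    rw [this, neg_zero]
  · rw [rE_ne hl]

/-- The nullhomotopy of the upper cap. -/
def Hpj (j : Fin n) (p : M × ℝ) : M :=
  if p.2 ≤ 1 / 2 then hom h 1 (p.1, 2 * p.2) else h.symm (nz (arc j (2 * p.2 - 1)))

theorem Hpj_cont (hn : 1 ≤ n) (j : Fin n) : ContinuousOn (Hpj h j) (Dp h ×ˢ Icc (0 : ℝ) 1) := by
  have hJ := continuousOn_hom h (c := 1) (D := Dp h) fun x hx s hs => nd_p h hn hx hs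
  rw [continuousOn_iff_continuous_domRestrict]
  change Continuous fun q : (Dp h ×ˢ Icc (0 : ℝ) 1 : Set (M × ℝ)) =>
    if q.1.2 ≤ 1 / 2 then hom h 1 (q.1.1, 2 * q.1.2) else h.symm (nz (arc j (2 * q.1.2 - 1)))
  refine Continuous.if_le ?_ ?_ ?_ continuous_const ?_
  · refine hJ.comp_continuous ?_ fun q => ?_
    · fun_prop
    · exact ⟨q.2.1, mem_univ _⟩
  · refine h.symm.continuous.comp (continuousOn_nz.comp_continuous
      ((continuous_arc j).comp (by fun_prop)) fun q => arc_ne j _)
  · fun_prop
  · intro q hq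
    rw [hq, hom_one h 1 q.1.1 (by norm_num)]
    congr 2
    simp [arc]

/-- The caps (the nullhomotopy of the upper cap follows the coordinate `j`). -/
def ccaps (hn : 1 ≤ n) (j : Fin n) : Caps n M (h.symm (nz ((-1 : ℝ) • pole n))) where
  Dp := Dp h
  Dm := Dm h
  closed_p := isClosed_Dp h
  closed_m := isClosed_Dm h
  union := by
    ext x
    simp only [mem_union, mem_univ, iff_true]
    by_cases hx : x ∈ Dp h
    · exact Or.inl hx
    · right
      simp only [Dp, mem_ofPred_eq, not_forall, not_le] at hx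
      obtain ⟨i, hi⟩ := hx
      exact ⟨i, hi.le⟩
  φ := fun x i => (co h x i.castSucc / co h x (Fin.last n) + 1) / 2
  ψ := fun y => h.symm (nz (vec y))
  φ_cont := by
    refine continuousOn_pi.2 fun i => ?_
    refine ContinuousOn.div_const (ContinuousOn.add (ContinuousOn.div
      (continuous_co h _).continuousOn (continuous_co h _).continuousOn fun x hx =>
        (last_pos h hn hx).ne') continuousOn_const) _
  φ_mem := by
    intro x hx i
    have h1 := last_pos h hn hx
    have h2 := abs_le.1 (hx i)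
    have h3 : co h x i.castSucc / co h x (Fin.last n) ≤ 1 := (div_le_one h1).2 h2.2
    have h4 : -1 ≤ co h x i.castSucc / co h x (Fin.last n) := by
      rw [le_div_iff₀ h1]
      linarith
    constructor <;> linarith
  ψ_cont := (h.symm.continuous.comp_continuousOn (continuousOn_nz.comp
    continuous_vec.continuousOn fun y _ => vec_ne y))
  ψ_mem := by
    intro y hy i
    have hco : ∀ (y : Fin n → ℝ) (i : Fin (n + 1)),
        co h (h.symm (nz (vec y))) i = ‖vec y‖⁻¹ * vec y i := by
      intro y i
      unfold co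
      rw [h.apply_symm_apply, nz_apply (vec_ne y)]
    have hpos : 0 < ‖vec y‖⁻¹ := inv_pos.2 (norm_pos_iff.2 (vec_ne y))
    rw [hco, hco, vec_last, vec_castSucc, abs_mul, abs_of_pos hpos]
    refine mul_le_mul_of_nonneg_left ?_ hpos.le
    rw [abs_le]
    constructor <;> linarith [(hy i).1, (hy i).2]
  φψ := by
    intro y hy
    have hco : ∀ (y : Fin n → ℝ) (i : Fin (n + 1)),
        co h (h.symm (nz (vec y))) i = ‖vec y‖⁻¹ * vec y i := by
      intro y i
      unfold co
      rw [h.apply_symm_apply, nz_apply (vec_ne y)]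
    ext i
    simp only [hco, vec_last, vec_castSucc]
    have hy0 := norm_ne_zero_iff.2 (vec_ne y)
    rw [mul_div_mul_left _ _ (inv_ne_zero hy0)]
    ring
  ψφ := by
    intro x hx
    have h1 := last_pos h hn hx
    have h2 : vec (fun i => (co h x i.castSucc / co h x (Fin.last n) + 1) / 2) =
        (co h x (Fin.last n))⁻¹ • (h x : En n) := by
      ext i
      refine Fin.lastCases ?_ (fun j => ?_) i
      · rw [vec_last]
        simp only [PiLp.smul_apply, smul_eq_mul]
        exact (inv_mul_cancel₀ h1.ne').symm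
      · rw [vec_castSucc]
        simp only [PiLp.smul_apply, smul_eq_mul]
        change _ = (co h x (Fin.last n))⁻¹ * co h x j.castSucc
        field_simp
        ring
    have h3 : (h x : En n) ≠ 0 := by
      intro h4
      have := norm_h h x
      rw [h4, norm_zero] at this
      exact zero_ne_one this
    change h.symm (nz (vec fun i => (co h x i.castSucc / co h x (Fin.last n) + 1) / 2)) = x
    rw [h2, nz_smul h3 (inv_pos.2 h1), nz_of_mem, h.symm_apply_apply]
  bdry := by
    intro x hx
    have h1 := last_pos h hn hx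
    constructor
    · rintro ⟨i, hi⟩
      have h2 : |co h x i.castSucc| = co h x (Fin.last n) := le_antisymm (hx i) hi
      refine ⟨i, ?_⟩
      rcases abs_choice (co h x i.castSucc) with h3 | h3
      · right
        rw [h3] at h2
        rw [h2, div_self h1.ne']
        norm_num
      · left
        rw [h3] at h2
        have h4 : co h x i.castSucc = -co h x (Fin.last n) := by linarith
        rw [h4, neg_div, div_self h1.ne']
        norm_num
    · rintro ⟨i, hi | hi⟩
      · refine ⟨i, ?_⟩
        have h2 : co h x i.castSucc / co h x (Fin.last n) = -1 := by linarith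
        rw [div_eq_iff h1.ne'] at h2
        rw [h2, abs_mul, abs_of_pos h1]
        norm_num
      · refine ⟨i, ?_⟩
        have h2 : co h x i.castSucc / co h x (Fin.last n) = 1 := by linarith
        rw [div_eq_iff h1.ne'] at h2
        rw [h2, one_mul]
        exact le_abs_self _
  Hp := Hpj h j
  Hp_cont := Hpj_cont h hn j
  Hp_zero := by
    intro x hx
    unfold Hpj
    rw [if_pos (by norm_num)]
    simp only [mul_zero]
    exact hom_zero h 1 x
  Hp_one := by
    intro x hx
    unfold Hpj
    rw [if_neg (by norm_num)]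
    congr 2
    norm_num [arc]
  Hm := hom h (-1)
  Hm_cont := (continuousOn_hom h fun x hx s hs => nd_m h hx hs).mono
    (prod_mono (Subset.refl _) (subset_univ _))
  Hm_zero := fun x _ => hom_zero h (-1) x
  Hm_one := fun x _ => hom_one h (-1) x le_rfl
  xm := h.symm (nz ((-1 : ℝ) • pole n))
  xm_mem := xm_mem h hn
  Km := hom h (-1)
  Km_cont := (continuousOn_hom h fun x hx s hs => nd_m h hx hs).mono
    (prod_mono (Subset.refl _) (subset_univ _))
  Km_mem := fun x hx s _ => hom_mem h hx s
  Km_zero := fun x _ => hom_zero h (-1) x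
  Km_one := fun x _ => hom_one h (-1) x le_rfl

theorem ccaps_φ (hn : 1 ≤ n) (i j : Fin n) (x : M) :
    (ccaps h hn j).φ (rM h i x) = rf i ((ccaps h hn j).φ x) := by
  funext l
  change (co h (rM h i x) l.castSucc / co h (rM h i x) (Fin.last n) + 1) / 2 =
    rf i (fun l => (co h x l.castSucc / co h x (Fin.last n) + 1) / 2) l
  by_cases hl : l = i
  · subst hl
    rw [H901.rf_same, co_rM_same, co_rM_last]
    ring
  · rw [H901.rf_ne hl, co_rM_last, co_rM_ne h fun e => hl (Fin.castSucc_injective _ e)]

theorem fM_x₀ (i : Fin n) : rM h i (h.symm (nz ((-1 : ℝ) • pole n))) =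
    h.symm (nz ((-1 : ℝ) • pole n)) := by rw [rM_symm, map_smul, rE_pole]

/-- **Symmetric caps.** -/
def rcaps (hn : 1 ≤ n) {i j : Fin n} (hij : i ≠ j) :
    RCaps n M (h.symm (nz ((-1 : ℝ) • pole n))) i where
  toCaps := ccaps h hn j
  f := rM h i
  f_cont := continuous_rM h i
  f_f := rM_rM h i
  f_x₀ := fM_x₀ h i
  f_xm := fM_x₀ h i
  f_Dp := rM_Dp h i
  f_Dm := rM_Dm h i
  φ_f := ccaps_φ h hn i j
  ψ_f := by
    intro y
    change h.symm (nz (vec (rf i y))) = rM h i (h.symm (nz (vec y)))
    rw [rM_symm, rE_vec]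
  Hp_f := by
    intro x s
    change Hpj h j _ = rM h i (Hpj h j _)
    unfold Hpj
    simp only
    split_ifs
    · exact hom_rM h i 1 x (2 * s)
    · rw [rM_symm, rE_arc hij]
  Hm_f := fun x s => hom_rM h i (-1) x s
  Km_f := fun x s => hom_rM h i (-1) x s

include h in
theorem exists_rcaps (hn : 1 ≤ n) {i j : Fin n} (hij : i ≠ j) :
    ∃ x₀ : M, Nonempty (RCaps n M x₀ i) := ⟨_, ⟨rcaps h hn hij⟩⟩

end

end

end Vale.Agent.P216.H388
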