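import Vale.Agent.P216.H456.PTriv
import Vale.Agent.P216.H250.Pi0P
import Vale.Agent.P216.H901.Fam
import Vale.Agent.P216.H962.SlH

/-!
# Multiplication by a loop, and the spur (P216, block B43, item (5))

* `hp_lmul`, `hp_rmul`: the left and the right multiplication of based Moore loops by a fixed loop
  `q` which is joined to the constant loop are homotopic to the inclusion (loss of time
  independent of `t`).
* `spur`: the homotopy from `q⁻¹ * c₀ * q` to the constant loop, in families.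
-/

set_option linter.all false

open Set Filter Topology BoundedContinuousFunction

namespace Vale.Agent.P216.H388

open Vale.Agent.P216.PS Vale.Agent.P216.MV337 Vale.Agent.P216.H456
open Vale.Agent.P216.AS (IsMap IsHtpy Ha res pull)
open Vale.Agent.P216.H901 (Hp tr on)

section mul

variable {M : Type} [MetricSpace M] {x₀ : M} {L L' K m t τ : ℝ} {q : ℝ → M} {g p : ℝ →ᵇ M}

/-- the curves of the homotopy -/
noncomputable def lshf (m τ : ℝ) (p g : ℝ → M) (u : ℝ) : M := lj m p g (u + τ)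

theorem lip_lshf {p g : ℝ → M} (hp : Lip p) (hg : Lip g) (h0 : g 0 = p 0) :
    Lip (lshf m τ p g) :=
  (lip_lj hp hg h0).comp fun u v => by rw [add_sub_add_right_eq_sub]

theorem lshf_left {p g : ℝ → M} (hp : ∀ u, L' ≤ u → p u = x₀) (hg : ∀ u ≤ 0, g u = x₀)
    (h0 : g 0 = p 0) (hL' : 0 ≤ L') (h1 : τ ≤ m - L') {u : ℝ} (hu : u ≤ 0) :
    lshf m τ p g u = x₀ := by
  unfold lshf
  rcases le_total (u + τ) m with h | h
  · rw [lj_left h, hp _ (by linarith)]
  · rw [lj_right h0 h, hg _ (by linarith)]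

theorem lshf_right {p g : ℝ → M} (hg : ∀ u, t ≤ u → g u = x₀) (ht : 0 ≤ t)
    (h0 : g 0 = p 0) (hτ : 0 ≤ τ) {u : ℝ} (hu : t + m ≤ u) :
    lshf m τ p g u = x₀ := by
  unfold lshf
  rw [lj_right h0 (by linarith), hg _ (by linarith)]

variable [CompactSpace M]

/-- as a point of the path space -/
noncomputable def lsh (m τ : ℝ) (p g : ℝ →ᵇ M) : ℝ →ᵇ M := mo (lshf m τ p g)

theorem lsh_mem (hp : p ∈ P x₀ x₀ L') (hg : g ∈ P x₀ x₀ t) (ht : 0 ≤ t) (h0 : 0 ≤ τ)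
    (hL' : 0 ≤ L') (h1 : τ ≤ m - L') : lsh m τ p g ∈ P x₀ x₀ (t + m) := by
  have e : g 0 = p 0 := by rw [eq_left hp le_rfl, eq_left hg le_rfl]
  exact mo_mem (lip_lshf hp.1 hg.1 e) (fun u hu => lshf_left hp.2.2 hg.2.1 e hL' h1 hu)
    fun u hu => lshf_right hg.2.2 ht e h0 hu

theorem continuousOn_lsh {S : Type*} [TopologicalSpace S] {A : Set S} {p W : S → ℝ →ᵇ M}
    {τ : S → ℝ} {T : ℝ} (hT : 0 ≤ T) (hp : ContinuousOn p A) (hW : ContinuousOn W A)
    (hτ : ContinuousOn τ A) (hlp : ∀ s ∈ A, Lip (p s)) (hlW : ∀ s ∈ A, Lip (W s))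
    (h0 : ∀ s ∈ A, W s 0 = p s 0) (hm : ∀ s ∈ A, lsh m (τ s) (p s) (W s) ∈ PP M T) :
    ContinuousOn (fun s => lsh m (τ s) (p s) (W s)) A := by
  refine continuousOn_of_eval hT hm fun u => ?_
  refine ContinuousOn.congr (f := fun s => lj m (p s) (W s) (u + τ s)) ?_ fun s hs =>
    (lip_lshf (hlp s hs) (hlW s hs) (h0 s hs)).mo_apply u
  unfold lj
  have hu : ContinuousOn (fun s => u + τ s) A := continuousOn_const.add hτ
  refine PS.ContinuousOn.if_le' (continuousOn_eval hp (continuousOn_const.sub hu))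
    (continuousOn_eval hW (hu.sub continuousOn_const)) hu continuousOn_const fun s hs he => ?_
  rw [he, sub_self, h0 s hs]

/-- **Left multiplication** by a loop joined to the constant loop. -/
theorem hp_lmul (hL : 0 ≤ L) (hK : 0 ≤ K) (ht : 0 ≤ t) (hq : mo q ∈ P x₀ x₀ L)
    (hql : Lip q) (hj : JoinedIn (P x₀ x₀ (L + K)) (mo q) (cst x₀)) :
    Hp (P x₀ x₀ t) ∅ (P x₀ x₀ (t + L + K)) ∅ (fun g => mo (lj L q g)) id := by
  obtain ⟨γ, hγ⟩ := hj
  set Γ : ℝ → ℝ →ᵇ M := fun s => γ (projIcc 0 1 zero_le_one s) with hΓ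
  have hΓc : Continuous Γ := γ.continuous.comp continuous_projIcc
  have hΓm : ∀ s, Γ s ∈ P x₀ x₀ (L + K) := fun s => hγ _
  have hΓ0 : ∀ s ≤ 0, Γ s = mo q := fun s hs => by
    rw [hΓ]; show γ (projIcc 0 1 zero_le_one s) = _
    rw [projIcc_of_le_left _ hs]; exact γ.source
  have hΓ1 : ∀ s, 1 ≤ s → Γ s = cst x₀ := fun s hs => by
    rw [hΓ]; show γ (projIcc 0 1 zero_le_one s) = _
    rw [projIcc_of_right_le _ hs]; exact γ.target
  set T : ℝ → ℝ := fun s => max 0 (K * (1 - 3 * s)) + max 0 ((L + K) * (3 * s - 2)) with hT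
  have hTc : Continuous T := by rw [hT]; fun_prop
  have hT0 : ∀ s, 0 ≤ T s := fun s => add_nonneg (le_max_left _ _) (le_max_left _ _)
  have hmem : ∀ s ∈ Icc (0:ℝ) 1, ∀ g ∈ P x₀ x₀ t,
      lsh (L + K) (T s) (Γ (3 * s - 1)) g ∈ P x₀ x₀ (t + (L + K)) := by
    intro s hs g hg
    rcases le_total (3 * s) 1 with h1 | h1
    · have e : T s = K * (1 - 3 * s) := by
        rw [hT]; show max 0 (K * (1 - 3 * s)) + max 0 ((L + K) * (3 * s - 2)) = _
        rw [max_eq_right (mul_nonneg hK (by linarith)),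
          max_eq_left (mul_nonpos_of_nonneg_of_nonpos (by linarith) (by linarith)), add_zero]
      rw [hΓ0 _ (by linarith)]
      refine lsh_mem (L' := L) hq hg ht (hT0 s) hL ?_
      rw [e]
      nlinarith [hs.1]
    rcases le_total (3 * s) 2 with h2 | h2
    · have e : T s = 0 := by
        rw [hT]; show max 0 (K * (1 - 3 * s)) + max 0 ((L + K) * (3 * s - 2)) = _
        rw [max_eq_left (mul_nonpos_of_nonneg_of_nonpos hK (by linarith)),
          max_eq_left (mul_nonpos_of_nonneg_of_nonpos (by linarith) (by linarith)), add_zero]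
      rw [e]
      exact lsh_mem (L' := L + K) (hΓm _) hg ht le_rfl (by linarith) (by linarith)
    · have e : T s = (L + K) * (3 * s - 2) := by
        rw [hT]; show max 0 (K * (1 - 3 * s)) + max 0 ((L + K) * (3 * s - 2)) = _
        rw [max_eq_left (mul_nonpos_of_nonneg_of_nonpos hK (by linarith)),
          max_eq_right (mul_nonneg (by linarith) (by linarith)), zero_add]
      rw [hΓ1 _ (by linarith)]
      refine lsh_mem (L' := 0) (cst_mem _ _) hg ht (hT0 s) le_rfl ?_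
      rw [e]
      nlinarith [hs.2]
  refine hp_of_cont (isCompact_P _ _ _)
    (F := fun p => lsh (L + K) (T p.1) (Γ (3 * p.1 - 1)) p.2) ?_ ?_ ?_ ?_ ?_
  · refine continuousOn_lsh (T := t + (L + K)) (by linarith) ?_ continuousOn_snd ?_ ?_ ?_ ?_ ?_
    · exact (hΓc.comp (by fun_prop)).continuousOn
    · exact (hTc.comp continuous_fst).continuousOn
    · exact fun p hp => (hΓm _).1
    · exact fun p hp => hp.2.1
    · intro p hp
      rw [eq_left hp.2 le_rfl, eq_left (hΓm _) le_rfl]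
    · exact fun p hp => P_subset_PP (hmem _ hp.1 _ hp.2)
  · intro s hs g hg
    rw [add_assoc]
    exact hmem s hs g hg
  · exact fun s hs g hg => hg.elim
  · intro g hg
    show lsh (L + K) (T 0) (Γ (3 * 0 - 1)) g = mo (lj L q g)
    have e : T 0 = K := by
      rw [hT]; show max 0 (K * (1 - 3 * 0)) + max 0 ((L + K) * (3 * 0 - 2)) = _
      rw [max_eq_right (by nlinarith), max_eq_left (by nlinarith)]
      ring
    rw [e, hΓ0 _ (by norm_num)]
    unfold lsh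
    congr 1
    funext u
    have h0 : g 0 = (mo q) 0 := by rw [eq_left hg le_rfl, eq_left hq le_rfl]
    have h0' : g 0 = q 0 := by rw [h0, hql.mo_apply]
    show lj (L + K) (mo q) g (u + K) = lj L q g u
    rcases le_total u L with h | h
    · rw [lj_left (by linarith), lj_left h, hql.mo_apply]
      congr 1; ring
    · rw [lj_right h0 (by linarith), lj_right h0' h]
      congr 1; ring
  · intro g hg
    show lsh (L + K) (T 1) (Γ (3 * 1 - 1)) g = g
    have e : T 1 = L + K := by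
      rw [hT]; show max 0 (K * (1 - 3 * 1)) + max 0 ((L + K) * (3 * 1 - 2)) = _
      rw [max_eq_left (by nlinarith), max_eq_right (by nlinarith)]
      ring
    rw [e, hΓ1 _ (by norm_num)]
    unfold lsh
    have : lshf (L + K) (L + K) (cst x₀) g = fun u => g u := by
      funext u
      show lj (L + K) (fun _ => x₀) g (u + (L + K)) = g u
      rw [lj_const g x₀ hg.2.1, add_sub_cancel_right]
    rw [this, mo_self]

/-- **Right multiplication** by a loop joined to the constant loop. -/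
theorem hp_rmul (hL : 0 ≤ L) (hK : 0 ≤ K) (ht : 0 ≤ t) (hq : mo q ∈ P x₀ x₀ L)
    (hql : Lip q) (hj : JoinedIn (P x₀ x₀ (L + K)) (mo q) (cst x₀)) :
    Hp (P x₀ x₀ t) ∅ (P x₀ x₀ (t + L + K)) ∅ (fun g => mo (catf t g q)) id := by
  obtain ⟨γ, hγ⟩ := hj
  set Γ : ℝ → ℝ →ᵇ M := fun s => γ (projIcc 0 1 zero_le_one s) with hΓ
  have hΓc : Continuous Γ := γ.continuous.comp continuous_projIcc
  have hΓm : ∀ s, Γ s ∈ P x₀ x₀ (L + K) := fun s => hγ _
  have hΓ0 : Γ 0 = mo q := by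
    rw [hΓ]; show γ (projIcc 0 1 zero_le_one 0) = _
    rw [projIcc_of_le_left _ le_rfl]; exact γ.source
  have hΓ1 : Γ 1 = cst x₀ := by
    rw [hΓ]; show γ (projIcc 0 1 zero_le_one 1) = _
    rw [projIcc_of_right_le _ le_rfl]; exact γ.target
  have hmem : ∀ s, ∀ g ∈ P x₀ x₀ t, cat t g (Γ s) ∈ P x₀ x₀ (t + (L + K)) := fun s g hg =>
    cat_mem ht (by linarith) hg (hΓm s)
  refine hp_of_cont (isCompact_P _ _ _) (F := fun p => cat t p.2 (Γ p.1)) ?_ ?_ ?_ ?_ ?_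
  · refine continuousOn_cat (t := t + (L + K)) (by linarith) continuousOn_snd
      (hΓc.comp continuous_fst).continuousOn continuousOn_const ?_ ?_ ?_ ?_
    · exact fun p hp => hp.2.1
    · exact fun p hp => (hΓm _).1
    · intro p hp
      rw [eq_right hp.2 le_rfl, eq_left (hΓm _) le_rfl]
    · exact fun p hp => P_subset_PP (hmem _ _ hp.2)
  · intro s hs g hg
    rw [add_assoc]
    exact hmem s g hg
  · exact fun s hs g hg => hg.elim
  · intro g hg
    show cat t g (Γ 0) = mo (catf t g q)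
    rw [hΓ0]
    unfold cat
    have : (fun u => (mo q) u) = q := funext fun u => hql.mo_apply u
    show mo (catf t g (fun u => (mo q) u)) = _
    rw [this]
  · intro g hg
    show cat t g (Γ 1) = g
    rw [hΓ1]
    unfold cat
    have : catf t g (cst x₀) = fun u => g u := by
      funext u
      have h0 : g t = (cst x₀) 0 := by rw [eq_right hg le_rfl, cst_apply]
      rcases le_total u t with h | h
      · rw [catf_left h]
      · rw [catf_right h0 h, cst_apply, eq_right hg h]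
    rw [this, mo_self]

/-! ### The spur -/

/-- the curves of the homotopy from `q⁻¹ * c₀ * q` to the constant curve -/
def spurf (L t τ : ℝ) (q : ℝ → M) (u : ℝ) : M := q (max (max (L - u) (u - t - L)) τ)

/-- as a point of the path space -/
noncomputable def spur (L t τ : ℝ) (q : ℝ → M) : ℝ →ᵇ M := mo (spurf L t τ q)

omit [CompactSpace M] in
theorem lip_spurf (hq : Lip q) : Lip (spurf L t τ q) := by
  refine hq.comp fun u v => ?_
  refine (abs_max_sub_max_le_max _ _ _ _).trans (max_le ?_ (by simp))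
  refine (abs_max_sub_max_le_max _ _ _ _).trans (max_le (le_of_eq ?_) (le_of_eq ?_))
  · rw [abs_sub_comm u v]; congr 1; ring
  · congr 1; ring

theorem spur_mem (hq : Lip q) (hqL : ∀ u, L ≤ u → q u = x₀) : spur L t τ q ∈ P x₀ x₀ (t + 2 * L) := by
  refine mo_mem (lip_spurf hq) (fun u hu => hqL _ ?_) fun u hu => hqL _ ?_
  · exact le_trans (by linarith) ((le_max_left _ _).trans (le_max_left _ _))
  · exact le_trans (by linarith) ((le_max_right _ _).trans (le_max_left _ _))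

theorem spur_end (hqL : ∀ u, L ≤ u → q u = x₀) (hτ : L ≤ τ) : spur L t τ q = cst x₀ := by
  unfold spur
  have : spurf L t τ q = fun u => (cst x₀) u := by
    funext u
    exact hqL _ (hτ.trans (le_max_right _ _))
  rw [this, mo_self]

theorem spur_zero (hq : Lip q) (hq0 : ∀ u ≤ 0, q u = x₀) (ht : 0 ≤ t) (hL : 0 ≤ L) :
    spur L t 0 q = mo (catf (t + L) (mo (lj L q (cst x₀))) q) := by
  unfold spur
  congr 1
  funext u
  have e0 : (cst x₀) 0 = q 0 := by rw [cst_apply, hq0 0 le_rfl]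
  have hl : Lip (lj L q (cst x₀)) := lip_lj hq (lip_cst x₀) e0
  have e1 : (mo (lj L q (cst x₀))) (t + L) = q 0 := by
    rw [hl.mo_apply, lj_right e0 (by linarith), cst_apply, hq0 0 le_rfl]
  show q (max (max (L - u) (u - t - L)) 0) = _
  rcases le_total u (t + L) with h | h
  · rw [catf_left h, hl.mo_apply]
    rcases le_total u L with h' | h'
    · rw [lj_left h', max_eq_left (by linarith : u - t - L ≤ L - u), max_eq_left (by linarith)]
    · rw [lj_right e0 h', cst_apply, max_eq_right (max_le (by linarith) (by linarith)),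
        hq0 0 le_rfl]
  · rw [catf_right e1 h]
    rw [max_eq_right (by linarith : L - u ≤ u - t - L), max_eq_left (by linarith)]
    congr 1; ring

theorem continuousOn_spur {S : Type*} [TopologicalSpace S] {A : Set S} {Q : S → ℝ → M}
    {τ : S → ℝ} (ht : 0 ≤ t) (hL : 0 ≤ L)
    (hQ : ∀ φ : S → ℝ, ContinuousOn φ A → ContinuousOn (fun s => Q s (φ s)) A)
    (hτ : ContinuousOn τ A) (hl : ∀ s ∈ A, Lip (Q s)) (hqL : ∀ s ∈ A, ∀ u, L ≤ u → Q s u = x₀) :
    ContinuousOn (fun s => spur L t (τ s) (Q s)) A := by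
  refine continuousOn_of_eval (t := t + 2 * L) (by linarith)
    (fun s hs => P_subset_PP (spur_mem (hl s hs) (hqL s hs))) fun u => ?_
  refine ContinuousOn.congr (f := fun s => spurf L t (τ s) (Q s) u) ?_ fun s hs =>
    (lip_spurf (hl s hs)).mo_apply u
  exact hQ _ (continuousOn_const.sup hτ)

end mul


/-! ### The loops of the tracks -/

section tracks

variable {M : Type} [MetricSpace M] {Dp Dm : Set M} {x₀ x : M} {ℓ t : ℝ} {Tp Tm : M → ℝ → M}

/-- The loop at `x₀` through `x` (`456`'s `sig`). -/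
noncomputable def sgq (Tp Tm : M → ℝ → M) (ℓ : ℝ) (x : M) : ℝ → M :=
  catf ℓ (fun u => Tp x (ℓ - u)) (Tm x)

theorem sgq_meet (hp : Tr Dp x₀ ℓ Tp) (hm : Tr Dm x₀ ℓ Tm) (hx : x ∈ Dp) (hx' : x ∈ Dm) :
    (fun u => Tp x (ℓ - u)) ℓ = Tm x 0 := by
  show Tp x (ℓ - ℓ) = Tm x 0
  rw [sub_self, hp.left x hx 0 le_rfl, hm.left x hx' 0 le_rfl]

theorem lip_sgq (hp : Tr Dp x₀ ℓ Tp) (hm : Tr Dm x₀ ℓ Tm) (hx : x ∈ Dp) (hx' : x ∈ Dm) :
    Lip (sgq Tp Tm ℓ x) :=
  lip_catf (hp.liprev hx) (hm.lip x hx') (sgq_meet hp hm hx hx')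

theorem sgq_left (hp : Tr Dp x₀ ℓ Tp) (hx : x ∈ Dp) {u : ℝ} (hu : u ≤ 0) :
    sgq Tp Tm ℓ x u = x₀ := by
  unfold sgq
  rw [catf_left (hu.trans hp.nonneg)]
  exact hp.right x hx _ (by linarith)

theorem sgq_right (hp : Tr Dp x₀ ℓ Tp) (hm : Tr Dm x₀ ℓ Tm) (hx : x ∈ Dp) (hx' : x ∈ Dm) {u : ℝ}
    (hu : 2 * ℓ ≤ u) : sgq Tp Tm ℓ x u = x₀ := by
  unfold sgq
  rw [catf_right (f := fun u => Tp x (ℓ - u)) (sgq_meet hp hm hx hx') (by linarith [hp.nonneg])]
  exact hm.right x hx' _ (by linarith)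

theorem sgq_cont (hp : Tr Dp x₀ ℓ Tp) (hm : Tr Dm x₀ ℓ Tm) {S : Type*} [TopologicalSpace S]
    {A : Set S} {X : S → M} {φ : S → ℝ} (hX : ContinuousOn X A) (hXp : ∀ s ∈ A, X s ∈ Dp)
    (hXm : ∀ s ∈ A, X s ∈ Dm) (hφ : ContinuousOn φ A) :
    ContinuousOn (fun s => sgq Tp Tm ℓ (X s) (φ s)) A := by
  unfold sgq catf
  refine PS.ContinuousOn.if_le' (hp.cont' hX hXp (continuousOn_const.sub hφ))
    (hm.cont' hX hXm (hφ.sub continuousOn_const)) hφ continuousOn_const fun s hs he => ?_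
  rw [he, sub_self]
  show Tp (X s) (ℓ - ℓ) = _
  rw [sub_self, hp.left _ (hXp s hs) 0 le_rfl, hm.left _ (hXm s hs) 0 le_rfl]

variable [CompactSpace M]

theorem sgq_mem (hp : Tr Dp x₀ ℓ Tp) (hm : Tr Dm x₀ ℓ Tm) (hx : x ∈ Dp) (hx' : x ∈ Dm) :
    mo (sgq Tp Tm ℓ x) ∈ P x₀ x₀ (2 * ℓ) :=
  mo_mem (lip_sgq hp hm hx hx') (fun u hu => sgq_left hp hx hu)
    fun u hu => sgq_right hp hm hx hx' hu

/-- **(e)** Left and right multiplication by the loop through a fixed point `x ∈ Dp ∩ Dm` are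
homotopic to the inclusion, with a loss of time `2 ℓ + K` independent of `t` and of `x`. -/
theorem exists_hp_mul [SimplyConnectedSpace M] {ρ : ℝ} (hρ : 0 < ρ) (hU : LS.UniqSeg M ρ)
    (hp : Tr Dp x₀ ℓ Tp) (hm : Tr Dm x₀ ℓ Tm) :
    ∃ K, 0 ≤ K ∧ ∀ x ∈ Dp, x ∈ Dm → ∀ t, 0 ≤ t →
      Hp (P x₀ x₀ t) ∅ (P x₀ x₀ (t + 2 * ℓ + K)) ∅
        (fun g => mo (lj (2 * ℓ) (sgq Tp Tm ℓ x) g)) id ∧
      Hp (P x₀ x₀ t) ∅ (P x₀ x₀ (t + 2 * ℓ + K)) ∅
        (fun g => mo (catf t g (sgq Tp Tm ℓ x))) id := by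
  obtain ⟨K, hK, -, hj⟩ := H250.pi0 hρ hU
  have hl : 0 ≤ 2 * ℓ := by linarith [hp.nonneg]
  refine ⟨K, hK, fun x hx hx' t ht => ?_⟩
  have h1 := hj x₀ x₀ (2 * ℓ) hl _ (sgq_mem hp hm hx hx') _ (cst_mem x₀ _)
  exact ⟨hp_lmul hl hK ht (sgq_mem hp hm hx hx') (lip_sgq hp hm hx hx') h1,
    hp_rmul hl hK ht (sgq_mem hp hm hx hx') (lip_sgq hp hm hx hx') h1⟩

end tracks

/-- A map homotopic to the inclusion induces the restriction. -/
theorem pull_eq_res_of_hp {k : Type} [Field k] {E : Type} [PseudoMetricSpace E] {A B B' : Set E}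
    {f : E → E} (H : Hp A ∅ B ∅ f id) (hB : B ⊆ B') (hAB : A ⊆ B')
    (hf : IsMap (tr E) (tr E) A B' f) (n : ℕ) :
    pull (on k) hf n = res (a := tr E) (χ := on k) hAB n := by
  obtain ⟨D, hD, -, h0, h1⟩ := H
  have hD' : IsHtpy (tr E) (tr E) A B' D := hD.mono le_rfl fun s hs x hx => hB (hD.mapsX s hs hx)
  have e := AS.pull_homotopy (k := k) (χ := on k) hD' n
  rw [AS.pull_congr hf hD'.zero fun x hx => (h0 hx).symm, ← e]
  exact AS.pull_eq_res hAB hD'.one fun x hx => h1 hx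

/-! ### The spur in families over the cube -/

section family

open Vale.Agent.P216.H962

variable {M : Type} [MetricSpace M] [CompactSpace M] {Dp Dm : Set M} {x₀ xb : M} {ℓ t : ℝ}
  {Tp Tm : M → ℝ → M} {m : ℕ} {X : (Fin m → ℝ) → M}

/-- **(f)** The homotopy from `sR (t + 2 ℓ) (X v) (sL (X v) c₀)` to the constant loop. -/
theorem spur_family {E : Type} [PseudoMetricSpace E] (A : Set E) (hp : Tr Dp x₀ ℓ Tp)
    (hm : Tr Dm x₀ ℓ Tm) (hX : ContinuousOn X (Bg m)) (hXp : ∀ v ∈ Bg m, X v ∈ Dp)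
    (hXm : ∀ v ∈ Bg m, X v ∈ Dm) (hXo : ∀ v ∈ Bg m, Out v → X v = xb) (ht : 0 ≤ t) :
    ∃ (D : (E × (Fin m → ℝ)) × ℝ → (ℝ →ᵇ M)) (D₀ : E × ℝ → (ℝ →ᵇ M)),
      UM ((A ×ˢ Bg m) ×ˢ Icc (0 : ℝ) 1) (P x₀ x₀ (t + 4 * ℓ)) D ∧
      (∀ y, ∀ v ∈ Bg m, Out v → ∀ s, D ((y, v), s) = D₀ (y, s)) ∧
      (∀ y, ∀ v ∈ Bg m, D ((y, v), 0) =
        mo (catf (t + 2 * ℓ) (mo (lj (2 * ℓ) (sgq Tp Tm ℓ (X v)) (cst x₀)))
          (sgq Tp Tm ℓ (X v)))) ∧
      ∀ y, ∀ v ∈ Bg m, D ((y, v), 1) = cst x₀ := by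
  have hn := hp.nonneg
  refine ⟨fun p => spur (2 * ℓ) t (2 * ℓ * p.2) (sgq Tp Tm ℓ (X p.1.2)),
    fun p => spur (2 * ℓ) t (2 * ℓ * p.2) (sgq Tp Tm ℓ xb), ?_, ?_, ?_, ?_⟩
  · -- uniform continuity, through the compact `Bg m ×ˢ [0, 1]`
    have h1 : UM (Bg m ×ˢ Icc (0 : ℝ) 1) (P x₀ x₀ (t + 4 * ℓ))
        fun p : (Fin m → ℝ) × ℝ => spur (2 * ℓ) t (2 * ℓ * p.2) (sgq Tp Tm ℓ (X p.1)) := by
      refine UM.of_compact ((isCompact_Bg m).prod isCompact_Icc) ?_ fun p hp' => ?_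
      · refine continuousOn_spur (x₀ := x₀) ht (by linarith) (fun φ hφ => ?_) ?_ ?_ ?_
        · exact sgq_cont hp hm (hX.comp continuousOn_fst fun p hp' => hp'.1)
            (fun p hp' => hXp _ hp'.1) (fun p hp' => hXm _ hp'.1) hφ
        · fun_prop
        · exact fun p hp' => lip_sgq hp hm (hXp _ hp'.1) (hXm _ hp'.1)
        · exact fun p hp' u hu => sgq_right hp hm (hXp _ hp'.1) (hXm _ hp'.1) hu
      · have := spur_mem (L := 2 * ℓ) (t := t) (τ := 2 * ℓ * p.2)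
          (lip_sgq hp hm (hXp _ hp'.1) (hXm _ hp'.1))
          (fun u hu => sgq_right hp hm (hXp _ hp'.1) (hXm _ hp'.1) hu)
        exact P_mono (by linarith) this
    have h2 : UM ((A ×ˢ Bg m) ×ˢ Icc (0 : ℝ) 1) (Bg m ×ˢ Icc (0 : ℝ) 1)
        fun p : (E × (Fin m → ℝ)) × ℝ => (p.1.2, p.2) := by
      refine UM.of_dist_le (fun p hp' => ⟨hp'.1.2, hp'.2⟩) fun p _ q _ => ?_
      simp only [Prod.dist_eq]
      exact max_le_max (le_max_right _ _) le_rfl
    exact h1.comp h2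
  · intro y v hv ho s
    show spur _ _ _ (sgq Tp Tm ℓ (X v)) = _
    rw [hXo v hv ho]
  · intro y v hv
    show spur (2 * ℓ) t (2 * ℓ * 0) (sgq Tp Tm ℓ (X v)) = _
    rw [mul_zero]
    exact spur_zero (lip_sgq hp hm (hXp v hv) (hXm v hv)) (fun u hu => sgq_left hp (hXp v hv) hu)
      ht (by linarith)
  · intro y v hv
    show spur (2 * ℓ) t (2 * ℓ * 1) (sgq Tp Tm ℓ (X v)) = _
    rw [mul_one]
    exact spur_end (fun u hu => sgq_right hp hm (hXp v hv) (hXm v hv) hu) le_rfl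

/-- **(f), cohomology**: the slant of any class by the family `v ↦ σ_v⁻¹ * c₀ * σ_v` vanishes. -/
theorem Sl_spur {k : Type} [Field k] (h2 : (2 : k) ≠ 0) (hm1 : 1 ≤ m) {E : Type}
    [PseudoMetricSpace E] {A : Set E} (hp : Tr Dp x₀ ℓ Tp)
    (hm : Tr Dm x₀ ℓ Tm) (hX : ContinuousOn X (Bg m)) (hXp : ∀ v ∈ Bg m, X v ∈ Dp)
    (hXm : ∀ v ∈ Bg m, X v ∈ Dm) (hXo : ∀ v ∈ Bg m, Out v → X v = xb) (ht : 0 ≤ t)
    {Y : Set (ℝ →ᵇ M)} (hY : P x₀ x₀ (t + 4 * ℓ) ⊆ Y)
    {F : E × (Fin m → ℝ) → (ℝ →ᵇ M)} {f₀ : E → (ℝ →ᵇ M)} (h : IsFm A Y F f₀)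
    (hF : ∀ y ∈ A, ∀ v ∈ Jc m, F (y, v) =
      mo (catf (t + 2 * ℓ) (mo (lj (2 * ℓ) (sgq Tp Tm ℓ (X v)) (cst x₀))) (sgq Tp Tm ℓ (X v))))
    (q : ℕ) (z : Ha (tr (ℝ →ᵇ M)) (on k) Y (q + m)) : Sl h2 hm1 h q z = 0 := by
  obtain ⟨D, D₀, hD, ho, h0, h1⟩ := spur_family A hp hm hX hXp hXm hXo ht
  have hc : IsFm A Y (fun _ : E × (Fin m → ℝ) => cst x₀) (fun _ => cst x₀) := by
    refine ⟨⟨fun p _ => hY (cst_mem x₀ _), fun ε hε => ⟨1, one_pos, fun x _ y _ _ => ?_⟩⟩,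
      fun _ _ _ _ _ => rfl⟩
    rw [dist_self]
    exact hε
  rw [Sl_htpy h2 hm1 h hc (D := D) (D₀ := D₀)
    ((hD.mono_right hY).mono (prod_mono (prod_mono le_rfl (Jc_sub_Bg m)) le_rfl))
    (fun y _ v hv s _ => ho y v (Jc_sub_Bg m (bJ_sub m hv)) (out_of_bJ hv) s)
    (fun y hy v hv => (h0 y v (Jc_sub_Bg m hv)).trans (hF y hy v hv).symm)
    (fun y _ v hv => h1 y v (Jc_sub_Bg m hv)) q]
  exact Sl_const h2 hm1 hc (fun _ _ _ _ => rfl) q z

end family

end Vale.Agent.P216.H388
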